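import Crest.Agent.N222.F.Hess
import Crest.Agent.N222.D.Egr
import Crest.Agent.N222.D.Pert2

/-!
# Row 222, top level (helper55): the delta-calculus of an `Imm` in the preferred chart
-/

set_option autoImplicit false
set_option linter.unusedSectionVars false

open Set Filter Topology
open scoped ContDiff InnerProductSpace
open Crest.GeometryTopology Crest.GeometryTopology.CoordMetric
open Crest.Agent.R202.Tens Crest.Agent.R247 Crest.Agent.R273.RMan_798 Crest.Agent.N222.D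

noncomputable section

namespace Crest.Agent.N222.T

section Alg

variable {ι κ : Type} [Fintype ι] [Fintype κ] {P T : ι → ι → ℝ} {u : κ → ι → ℝ}

/-- evaluation of a 2-tensor -/
def ev2 (T : ι → ι → ℝ) (v w : ι → ℝ) : ℝ := ∑ a, ∑ b, T a b * (v a * w b)

theorem tr_frame (hP : ∀ a b, P a b = ∑ α, u α a * u α b) (hT : ∀ a b, ∑ e, P b e * T a e = T a b) :
    ∑ a, T a a = ∑ α, ev2 T (u α) (u α) := by
  simp only [ev2]
  rw [Finset.sum_comm]
  refine Finset.sum_congr rfl fun a _ => ?_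
  rw [← hT, Finset.sum_comm]
  refine Finset.sum_congr rfl fun e _ => ?_
  rw [hP, Finset.sum_mul]
  exact Finset.sum_congr rfl fun α _ => by ring

theorem sq_frame (hP : ∀ a b, P a b = ∑ α, u α a * u α b) (hT : ∀ a b, ∑ e, P b e * T a e = T a b)
    (hs : ∀ a b, T a b = T b a) :
    ∑ a, ∑ b, T a b * T a b = ∑ α, ∑ β, ev2 T (u α) (u β) * ev2 T (u α) (u β) := by
  have h1 : ∀ a b, T a b = ∑ β, u β b * ∑ e, T a e * u β e := fun a b => by
    rw [← hT a b]
    simp only [hP, Finset.sum_mul, Finset.mul_sum]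
    rw [Finset.sum_comm]
    exact Finset.sum_congr rfl fun β _ => Finset.sum_congr rfl fun e _ => by ring
  have h2 : ∀ a β, ∑ e, T a e * u β e = ∑ α, u α a * ev2 T (u α) (u β) := fun a β => by
    have : ∀ e, T a e * u β e = ∑ α, u α a * ∑ c, T c e * (u α c * u β e) := fun e => by
      rw [hs a e, h1 e a, Finset.sum_mul]
      refine Finset.sum_congr rfl fun α _ => ?_
      rw [mul_assoc, Finset.sum_mul]
      congr 1
      exact Finset.sum_congr rfl fun c _ => by rw [hs e c]; ring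
    simp only [this, ev2]
    rw [Finset.sum_comm]
    refine Finset.sum_congr rfl fun α _ => ?_
    rw [← Finset.mul_sum, Finset.sum_comm]
  have h3 : ∀ a b, T a b * T a b = ∑ α, ∑ β, ev2 T (u α) (u β) * (T a b * (u α a * u β b)) :=
    fun a b => by
      nth_rw 2 [h1 a b]
      simp only [h2, Finset.mul_sum]
      rw [Finset.sum_comm]
      exact Finset.sum_congr rfl fun α _ => Finset.sum_congr rfl fun β _ => by ring
  simp only [h3]
  have h4 : ∀ α β, ev2 T (u α) (u β) * ev2 T (u α) (u β) =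
      ∑ a, ∑ b, ev2 T (u α) (u β) * (T a b * (u α a * u β b)) := fun α β => by
    nth_rw 2 [ev2]
    simp only [Finset.mul_sum]
  simp only [h4]
  refine (Finset.sum_congr rfl fun a _ => Finset.sum_comm).trans (Finset.sum_comm.trans ?_)
  refine Finset.sum_congr rfl fun α _ => ?_
  exact (Finset.sum_congr rfl fun a _ => Finset.sum_comm).trans Finset.sum_comm

end Alg

theorem fderiv2_clm {E F : Type*} [NormedAddCommGroup E] [NormedSpace ℝ E] [NormedAddCommGroup F]
    [NormedSpace ℝ F] {f : E → F} {y : E} (hf : ContDiffAt ℝ 2 f y) (ℓ : F →L[ℝ] ℝ) (v w : E) :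
    fderiv ℝ (fderiv ℝ fun z => ℓ (f z)) y v w = ℓ (fderiv ℝ (fderiv ℝ f) y v w) := by
  have h1 : (fderiv ℝ fun z => ℓ (f z)) =ᶠ[𝓝 y]
      fun z => ContinuousLinearMap.compL ℝ E F ℝ ℓ (fderiv ℝ f z) := by
    filter_upwards [hf.eventually (by norm_num)] with z hz
    exact (ℓ.hasFDerivAt.comp z (hz.differentiableAt (by norm_num)).hasFDerivAt).fderiv
  have h2 : DifferentiableAt ℝ (fderiv ℝ f) y :=
    (hf.fderiv_right (m := 1) (by norm_num)).differentiableAt (by norm_num)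
  rw [h1.fderiv_eq, show fderiv ℝ (fun z => ContinuousLinearMap.compL ℝ E F ℝ ℓ (fderiv ℝ f z)) y =
    _ from ((ContinuousLinearMap.compL ℝ E F ℝ ℓ).hasFDerivAt.comp y h2.hasFDerivAt).fderiv]
  rfl

theorem scal_gauss {n N : ℕ} {f : EE n → EE N} {V : Set (EE n)} (hV : IsOpen V)
    (hf : ContDiffOn ℝ ∞ f V) (hinj : ∀ x ∈ V, Function.Injective (fderiv ℝ f x)) {y : EE n}
    (hy : y ∈ V) {ξ : Fin n → EE n} (hξ : Bo84.IsFrame (Submanifold.metricMat f y) ξ)
    {σ : EE n → EE n → EE N} (hσ : ∀ v w, σ v w = fderiv ℝ (fderiv ℝ f) y v w -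
      fderiv ℝ f y (Gam (Submanifold.metricMat f) y v w)) :
    scal (Submanifold.metricMat f) y =
      ∑ α, ∑ β, (⟪σ (ξ β) (ξ β), σ (ξ α) (ξ α)⟫_ℝ - ⟪σ (ξ α) (ξ β), σ (ξ β) (ξ α)⟫_ℝ) := by
  have hg := egr_riem hV hf hinj
  rw [scal_frame hξ]
  refine Finset.sum_congr rfl fun α _ => ?_
  set Γ := Gam (Submanifold.metricMat f) with hΓ
  have h1 := hξ.trL_eq hg hy (((fderiv ℝ Γ y).flip (ξ α)).flip (ξ α) -
    (fderiv ℝ Γ y (ξ α)).flip (ξ α) + (Γ y).flip (Γ y (ξ α) (ξ α)) -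
    (Γ y (ξ α)).comp ((Γ y).flip (ξ α)))
  rw [ricci_form hg hy]
  refine ((Bo84.trL_apply _).symm.trans h1).trans (Finset.sum_congr rfl fun β _ => ?_)
  rw [egr_bil, hσ, hσ, hσ, hσ]
  exact egr_gauss ((hf.contDiffAt (hV.mem_nhds hy)).of_le Bo84.three_le_infty)
    (hasFDerivAt_Gam (differentiableAt_christoffel hg hy)).differentiableAt
    (by filter_upwards [hV.mem_nhds hy] with z hz using egr_normal hV hf hinj hz) _ _ _ _

variable {n N : ℕ} {X : Type} [TopologicalSpace X] (M : Imm n (Fin N) X) (p : X)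

/-- the metric in the preferred chart -/
abbrev gM : MetricField n := Submanifold.metricMat (M.x ∘ (M.ch p).symm)

theorem ctr : M.ch p p ∈ (M.ch p).target := (M.ch p).map_source (M.mem p)

theorem riemM : IsRiemannianOn (gM M p) (M.ch p).target :=
  egr_riem (M.ch p).open_target (M.isChart p).sm (M.isChart p).inj

variable {M p} {ξ : Fin n → EE n}

theorem P_frame (hξ : Bo84.IsFrame (gM M p (M.ch p p)) ξ) (a b : Fin N) :
    M.pre.P a b p = ∑ α, M.J p (ξ α) a * M.J p (ξ α) b := by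
  obtain ⟨v, hv⟩ := Imm.PL_mem_range (M.isChart p) (M.mem p) (ee a)
  have h1 := hξ.expand (riemM M p) (ctr M p) v
  rw [M.P_apply, ← hv, h1, map_sum]
  simp only [map_smul, WithLp.ofLp_sum, WithLp.ofLp_smul, Finset.sum_apply, Pi.smul_apply,
    smul_eq_mul]
  refine Finset.sum_congr rfl fun α _ => ?_
  rw [egr_bil, hv, M.PL_symm, Imm.PL_chart (M.isChart p) (M.mem p)]
  simp [ee, EuclideanSpace.inner_single_left, Imm.J]

theorem gam_chart (φ ψ : X → ℝ) : M.pre.gam φ ψ p =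
    Bo84.gam (gM M p) (φ ∘ (M.ch p).symm) (ψ ∘ (M.ch p).symm) (M.ch p p) := by
  have hg := riemM M p
  rw [Bo84.gam_eq_fderiv_grad', Imm.fderiv_chart ψ (M.isChart p) (M.mem p),
    ContinuousLinearMap.comp_apply, Imm.td_eq_inner, Imm.gam_eq_inner, real_inner_comm]
  · congr 1
    obtain ⟨v, hv⟩ := Imm.PL_mem_range (M.isChart p) (M.mem p) (M.grad φ p)
    rw [Imm.PL_grad] at hv
    rw [← hv]
    congr 1
    refine Bo84.bil_injective hg (ctr M p) fun Z => ?_
    rw [Bo84.bil_grad hg (ctr M p), egr_bil, hv, Imm.fderiv_chart φ (M.isChart p) (M.mem p),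
      ContinuousLinearMap.comp_apply, Imm.td_eq_inner]
  · exact hg
  · exact ctr M p

theorem PL_dd (v w : EE n) :
    M.PL p (fderiv ℝ (fderiv ℝ (M.x ∘ (M.ch p).symm)) (M.ch p p) v w) =
      M.J p (Gam (gM M p) (M.ch p p) v w) := by
  refine ext_inner_right ℝ fun z => ?_
  obtain ⟨t, ht⟩ := Imm.PL_mem_range (M.isChart p) (M.mem p) z
  have h1 := egr_normal (M.ch p).open_target (M.isChart p).sm (M.isChart p).inj (ctr M p) v w t
  rw [inner_sub_left, sub_eq_zero, ht] at h1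
  rw [M.PL_symm, h1, ← M.PL_symm, Imm.PL_chart (M.isChart p) (M.mem p)]
  rfl

theorem hess_bridge {φ : X → ℝ} (hφ : M.Sm φ) (v w : EE n) :
    ev2 (fun a b => M.pre.hess φ a b p) (M.J p v) (M.J p w) =
      Bo84.hess (gM M p) (φ ∘ (M.ch p).symm) (M.ch p p) v w := by
  rw [Bo84.hess_apply, Imm.hess_chart hφ (M.isChart p) (M.mem p), ← Imm.td_PL, PL_dd,
    Imm.fderiv_chart φ (M.isChart p) (M.mem p)]
  exact (add_sub_cancel_right _ _).symm

theorem P_hess {φ : X → ℝ} (hφ : M.Sm φ) (a b : Fin N) :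
    ∑ e, M.pre.P b e p * M.pre.hess φ a e p = M.pre.hess φ a b p := by
  have := congrArg M.val (M.isDS.P_hess ⟨φ, hφ⟩ a b)
  simp only [map_sum, map_mul, M.hom.hess, M.hom.P] at this
  simpa using congrFun this p

theorem cd2 {F : Type} [NormedAddCommGroup F] [NormedSpace ℝ F] {φ : X → F} (hφ : M.Sm φ) :
    ContDiffAt ℝ 2 (φ ∘ (M.ch p).symm) (M.ch p p) :=
  ((hφ p).contDiffAt ((M.ch p).open_target.mem_nhds (ctr M p))).of_le Bo84.two_le_infty

theorem lap_chart {φ : X → ℝ} (hφ : M.Sm φ) :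
    M.pre.lap φ p = laplaceBeltrami (gM M p) (φ ∘ (M.ch p).symm) (M.ch p p) := by
  obtain ⟨ξ, hξ⟩ := Bo84.exists_frame (riemM M p) (ctr M p)
  rw [Bo84.lap_frame (riemM M p) (ctr M p) (cd2 hφ) hξ, ← Imm.tr_hess hφ,
    tr_frame (u := fun α => M.J p (ξ α)) (P_frame hξ) (P_hess hφ)]
  exact Finset.sum_congr rfl fun α _ => hess_bridge hφ _ _

theorem scal_chart : M.pre.scal p = scal (gM M p) (M.ch p p) := by
  obtain ⟨ξ, hξ⟩ := Bo84.exists_frame (riemM M p) (ctr M p)
  set σ : EE n → EE n → EE N := fun v w =>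
    fderiv ℝ (fderiv ℝ (M.x ∘ (M.ch p).symm)) (M.ch p p) v w -
      fderiv ℝ (M.x ∘ (M.ch p).symm) (M.ch p p) (Gam (gM M p) (M.ch p p) v w) with hσ
  have h1 : ∀ c v w, ev2 (fun a b => M.pre.II a b c p) (M.J p v) (M.J p w) = σ v w c := by
    intro c v w
    refine (hess_bridge (M.sm_coord c) v w).trans ?_
    have h2 := fderiv2_clm (cd2 (p := p) M.sm_x) (EuclideanSpace.proj c) v w
    have h3 := ((EuclideanSpace.proj c : EE N →L[ℝ] ℝ).hasFDerivAt.comp _
      ((cd2 (p := p) M.sm_x).differentiableAt (by norm_num)).hasFDerivAt).fderiv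
    rw [Bo84.hess_apply]
    exact congrArg₂ (· - ·) h2 (congrArg (fun L : EE n →L[ℝ] ℝ => L _) h3)
  have hs : ∀ a b c, M.pre.II a b c p = M.pre.II b a c p := fun a b c =>
    congrFun (Imm.hess_symm (M.sm_coord c) a b) p
  have h2 : M.pre.scal p = ∑ c, (∑ a, M.pre.II a a c p) * (∑ a, M.pre.II a a c p) -
      ∑ c, ∑ a, ∑ b, M.pre.II a b c p * M.pre.II a b c p := by
    have := congrArg M.val M.isDS.scal_eq
    simp only [← M.isDS.tr_II, map_sub, map_sum, map_mul, M.hom.scal, M.hom.II] at this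
    have h3 := congrFun this p
    simp only [Pi.sub_apply, Finset.sum_apply, Pi.mul_apply] at h3
    rw [h3]
    congr 1
    exact (Finset.sum_congr rfl fun a _ => Finset.sum_comm).trans Finset.sum_comm
  have h3 : ∀ v w, σ v w = σ w v := fun v w => by
    ext c
    rw [← h1, ← h1, ev2, ev2, Finset.sum_comm]
    exact Finset.sum_congr rfl fun a _ => Finset.sum_congr rfl fun b _ => by rw [hs]; ring
  have h4 : ∀ c, ∑ a, M.pre.II a a c p = ∑ α, σ (ξ α) (ξ α) c := fun c => by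
    rw [tr_frame (T := fun a b => M.pre.II a b c p) (u := fun α => M.J p (ξ α)) (P_frame hξ)
      (P_hess (M.sm_coord c))]
    simp only [h1]
  have h5 : ∀ c, ∑ a, ∑ b, M.pre.II a b c p * M.pre.II a b c p =
      ∑ α, ∑ β, σ (ξ α) (ξ β) c * σ (ξ α) (ξ β) c := fun c => by
    rw [sq_frame (T := fun a b => M.pre.II a b c p) (u := fun α => M.J p (ξ α)) (P_frame hξ)
      (P_hess (M.sm_coord c)) fun a b => hs a b c]
    simp only [h1]
  rw [h2, scal_gauss (M.ch p).open_target (M.isChart p).sm (M.isChart p).inj (ctr M p) hξ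
    (σ := σ) fun _ _ => rfl]
  simp only [h4, h5, Finset.sum_sub_distrib, Finset.sum_mul_sum, PiLp.inner_apply,
    RCLike.inner_apply, conj_trivial]
  congr 1
  · exact Finset.sum_comm.trans (Finset.sum_congr rfl fun α _ => Finset.sum_comm)
  · refine Finset.sum_comm.trans (Finset.sum_congr rfl fun α _ => Finset.sum_comm.trans ?_)
    exact Finset.sum_congr rfl fun β _ => by rw [h3 (ξ β)]

/-- the drift `∑ φ_k ∇ψ_k` -/
def drift (M : Imm n (Fin N) X) {κ : Type} [Fintype κ] (φ ψ : κ → X → ℝ) (a : Fin N) (q : X) : ℝ :=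
  ∑ k, φ k q * M.pre.D a (ψ k) q

variable {κ : Type} [Fintype κ] {φ ψ : κ → X → ℝ}

theorem sm_drift (hφ : ∀ k, M.Sm (φ k)) (hψ : ∀ k, M.Sm (ψ k)) (a : Fin N) :
    M.Sm (drift M φ ψ a) := Imm.sm_sum _ fun k _ => (hφ k).mul ((hψ k).D a)

theorem tan_drift : M.pre.Tan (drift M φ ψ) := by
  intro a
  funext q
  simp only [Finset.sum_apply, Pi.mul_apply, drift, Finset.mul_sum]
  rw [Finset.sum_comm]
  refine Finset.sum_congr rfl fun k _ => ?_
  have := congrFun (Imm.tan_D (M := M) (ψ k) a) q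
  simp only [Finset.sum_apply, Pi.mul_apply] at this
  rw [← this, Finset.mul_sum]
  exact Finset.sum_congr rfl fun b _ => by ring

theorem Eb_chart (hφ : ∀ k, M.Sm (φ k)) (hψ : ∀ k, M.Sm (ψ k)) :
    M.pre.Eb (drift M φ ψ) p = cE (gM M p) (fun k => φ k ∘ (M.ch p).symm)
      (fun k => ψ k ∘ (M.ch p).symm) (M.ch p p) := by
  have h1 : M.pre.dv (drift M φ ψ) p =
      ∑ k, (M.pre.gam (φ k) (ψ k) p + φ k p * M.pre.lap (ψ k) p) := by
    rw [Imm.dv_apply]
    have : ∀ a, M.pre.D a (drift M φ ψ a) p = ∑ k, (φ k p * M.pre.D a (M.pre.D a (ψ k)) p +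
        M.pre.D a (φ k) p * M.pre.D a (ψ k) p) := fun a =>
      (Imm.D_sum _ (fun k _ => ((hφ k).mul ((hψ k).D a)).diffAt p) a).trans
        (Finset.sum_congr rfl fun k _ => Imm.D_mul ((hφ k).diffAt p) (((hψ k).D a).diffAt p) a)
    simp only [this]
    rw [Finset.sum_comm]
    refine Finset.sum_congr rfl fun k _ => ?_
    rw [Finset.sum_add_distrib, ← Finset.mul_sum, Imm.lap_apply, Imm.gam_apply, add_comm]
  have h2 : ∑ a, drift M φ ψ a p * drift M φ ψ a p =
      ∑ k, ∑ l, φ k p * φ l p * M.pre.gam (ψ k) (ψ l) p := by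
    simp only [drift, Finset.sum_mul_sum]
    simp only [Imm.gam_apply, Finset.mul_sum]
    refine Finset.sum_comm.trans (Finset.sum_congr rfl fun k _ => Finset.sum_comm.trans ?_)
    exact Finset.sum_congr rfl fun l _ => Finset.sum_congr rfl fun a _ => by ring
  have h3 : M.pre.Eb (drift M φ ψ) p = M.pre.scal p - 2 * M.pre.dv (drift M φ ψ) p -
      ∑ a, drift M φ ψ a p * drift M φ ψ a p := by simp [Pre.Eb]
  rw [h3, h1, h2, scal_chart, cE]
  simp only [gam_chart, fun k => lap_chart (p := p) (hψ k), Function.comp_apply,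
    (M.ch p).left_inv (M.mem p)]

end Crest.Agent.N222.T
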