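import Crest.Agent.N222.C.Defs

/-!
# Row 222, top level (helper55): topology of the universal covering
-/

set_option autoImplicit false

open Set Filter Topology

namespace Crest.Agent.N222.C.Cov

variable {S : Type} [TopologicalSpace S] (U : Cov S)

instance ccs : ContinuousConstSMul U.Γ U.T := U.qc.toContinuousConstSMul

theorem cov : IsCoveringMap U.p := U.qc.isCoveringMap

theorem loc : IsLocalHomeomorph U.p := U.cov.isLocalHomeomorph

theorem p_smul (g : U.Γ) (x : U.T) : U.p (g • x) = U.p x := U.qc.map_smul g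

theorem exists_smul {x y : U.T} (h : U.p x = U.p y) : ∃ g : U.Γ, g • y = x :=
  U.qc.apply_eq_iff_mem_orbit.1 h

theorem free' {g : U.Γ} {x : U.T} (h : g • x = x) : g = 1 := by
  obtain ⟨V, hV, h'⟩ := U.qc.disjoint x
  exact h' g ⟨x, ⟨x, mem_of_mem_nhds hV, h⟩, mem_of_mem_nhds hV⟩

instance conn : ConnectedSpace U.T := by
  have := U.sc
  infer_instance

instance t2 [T2Space S] : T2Space U.T := by
  refine ⟨fun x y hxy => ?_⟩
  by_cases h : U.p x = U.p y
  · exact U.cov.isSeparatedMap x y h hxy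
  · exact separated_by_continuous U.cov.continuous h

instance lc [LocallyCompactSpace S] : LocallyCompactSpace U.T := by
  refine ⟨fun x V hV => ?_⟩
  obtain ⟨e, hx, he⟩ := U.loc x
  have h1 : e.target ∩ e.symm ⁻¹' V ∈ 𝓝 (e x) :=
    inter_mem (e.open_target.mem_nhds (e.map_source hx))
      ((e.continuousAt_symm (e.map_source hx)).preimage_mem_nhds (by rwa [e.left_inv hx]))
  obtain ⟨K, hK, hKV, hKc⟩ := LocallyCompactSpace.local_compact_nhds _ _ h1
  refine ⟨e.symm '' K, ?_, by rintro _ ⟨y, hy, rfl⟩; exact (hKV hy).2,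
    hKc.image_of_continuousOn (e.continuousOn_symm.mono fun y hy => (hKV hy).1)⟩
  filter_upwards [e.open_source.mem_nhds hx, (e.continuousAt hx).preimage_mem_nhds hK] with y hy hy'
  exact ⟨e y, hy', e.left_inv hy⟩

theorem cocpt [LocallyCompactSpace S] [CompactSpace S] :
    ∃ K : Set U.T, IsCompact K ∧ ∀ x : U.T, ∃ g : U.Γ, g • x ∈ K := by
  choose s hs using U.qc.surjective
  choose K hK hK' using fun y => exists_compact_mem_nhds (s y)
  obtain ⟨t, -, ht⟩ := isCompact_univ.elim_nhds_subcover (fun y => U.p '' K y) fun y _ => by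
    have := U.loc.isOpenMap.image_mem_nhds (hK' y)
    rwa [hs] at this
  refine ⟨⋃ y ∈ t, K y, t.isCompact_biUnion fun y _ => hK y, fun x => ?_⟩
  obtain ⟨y, hy, z, hz, e⟩ := mem_iUnion₂.1 (ht (mem_univ (U.p x)))
  obtain ⟨g, rfl⟩ := U.exists_smul e
  exact ⟨g, mem_iUnion₂.2 ⟨y, hy, hz⟩⟩

/-- proper discontinuity -/
theorem fin [T2Space S] {A B : Set U.T} (hA : IsCompact A) (hB : IsCompact B) :
    {g : U.Γ | ∃ x ∈ A, g • x ∈ B}.Finite := by
  have key : {g : U.Γ | ∃ q ∈ A ×ˢ B, g • q.1 = q.2}.Finite := by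
    refine (hA.prod hB).induction_on (p := fun s => {g : U.Γ | ∃ q ∈ s, g • q.1 = q.2}.Finite)
      (by simp) (fun s t hst ht => ht.subset fun g ⟨q, hq, e⟩ => ⟨q, hst hq, e⟩)
      (fun s t hs ht => (hs.union ht).subset fun g ⟨q, hq, e⟩ =>
        hq.elim (fun h => Or.inl ⟨q, h, e⟩) fun h => Or.inr ⟨q, h, e⟩) ?_
    rintro ⟨x, y⟩ -
    by_cases h : U.p y = U.p x
    · obtain ⟨g₀, rfl⟩ := U.exists_smul h
      obtain ⟨V, hV, hV'⟩ := U.qc.disjoint x
      refine ⟨V ×ˢ ((g₀⁻¹ • ·) ⁻¹' V), mem_nhdsWithin_of_mem_nhds (prod_mem_nhds hV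
        ((continuous_const_smul g₀⁻¹).continuousAt.preimage_mem_nhds (by simpa using hV))),
        (finite_singleton g₀).subset fun g ⟨q, hq, e⟩ => ?_⟩
      have := hV' (g₀⁻¹ * g) ⟨_, ⟨q.1, hq.1, rfl⟩, by
        change (g₀⁻¹ * g) • q.1 ∈ V
        rw [mul_smul, e]; exact hq.2⟩
      exact (inv_mul_eq_one.1 this).symm
    · obtain ⟨V, W, hV, hW, hy, hx, hd⟩ := t2_separation h
      refine ⟨(U.p ⁻¹' W) ×ˢ (U.p ⁻¹' V), mem_nhdsWithin_of_mem_nhds (prod_mem_nhds
        ((hW.preimage U.cov.continuous).mem_nhds hx) ((hV.preimage U.cov.continuous).mem_nhds hy)),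
        finite_empty.subset fun g ⟨q, hq, e⟩ => ?_⟩
      have h1 : U.p q.2 ∈ W := by rw [← e, U.p_smul]; exact hq.1
      exact Set.disjoint_left.1 hd hq.2 h1
  exact key.subset fun g ⟨x, hx, hg⟩ => ⟨(x, g • x), ⟨hx, hg⟩, rfl⟩

instance sc2 [SecondCountableTopology S] : SecondCountableTopology U.T := by
  have := U.cnt
  choose s hs using U.qc.surjective
  choose e he hpe using fun y => U.loc (s y)
  obtain ⟨t, htc, ht⟩ := TopologicalSpace.countable_cover_nhds (f := fun y => (e y).target)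
    fun y => (e y).open_target.mem_nhds (by have := (e y).map_source (he y); rwa [← hpe, hs] at this)
  have := htc.to_subtype
  have h1 : ∀ q : U.Γ × t, SecondCountableTopology ((q.1 • ·) ⁻¹' (e q.2).source : Set U.T) := by
    intro q
    have h2 : SecondCountableTopology (e q.2).source :=
      (e q.2).toHomeomorphSourceTarget.secondCountableTopology
    exact ((Homeomorph.smul q.1).isEmbedding.restrictPreimage _).secondCountableTopology
  refine TopologicalSpace.secondCountableTopology_of_countable_cover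
    (U := fun q : U.Γ × t => (q.1 • ·) ⁻¹' (e q.2).source)
    (fun q => (e q.2).open_source.preimage (continuous_const_smul _)) (eq_univ_of_forall fun x => ?_)
  obtain ⟨y, hy, hxy⟩ := mem_iUnion₂.1 (ht.symm ▸ mem_univ (U.p x))
  obtain ⟨g, hg⟩ := U.exists_smul (x := (e y).symm (U.p x)) (y := x)
    (by rw [hpe y, (e y).right_inv (hpe y ▸ hxy)])
  exact mem_iUnion.2 ⟨(g, ⟨y, hy⟩), by
    change g • x ∈ (e y).source
    rw [hg]; exact (e y).map_target hxy⟩

end Crest.Agent.N222.C.Cov
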