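import Crest.Agent.N222.F.Defs
import Crest.Agent.N222.C.Defs

/-!
# Row 222, top level (helper55): the statement that parts A, B, C deliver

`T/Main.lean` proves `S0343` from `NoPosImm, CovStmt, AsphStmt, CoreStmt` and `S0344` from
`NoPosImm, CovStmt, SingStmt`.
-/

set_option autoImplicit false

namespace Crest.Agent.N222.T

/-- A closed embedded manifold with a drift `b` such that `E(b) = R - 2 div b - |b|² > 0` carries
no class. -/
def NoPosImm : Prop := ∀ (n : ℕ) (ι : Type) [Fintype ι] [DecidableEq ι] (S : Type)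
  [TopologicalSpace S] [T2Space S] [SecondCountableTopology S] [CompactSpace S] [ConnectedSpace S]
  (M : Imm n ι S) (b : ι → S → ℝ), 1 ≤ n → Function.Injective M.x → (∀ a, M.Sm (b a)) →
  M.pre.Tan b → (∀ p, 0 < M.pre.Eb b p) → ∀ U : C.Cov S, C.Cls U n → False

end Crest.Agent.N222.T
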