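import Crest.Agent.N222.T.Ess1
import Crest.Agent.N222.D.Main

/-!
# Row 222, top level: `EssStmt` of part D from part C 
-/

set_option autoImplicit false

open Set Filter Topology
open scoped Manifold
open Crest.Agent.R273.RMan_798 Crest.Agent.N222.D

noncomputable section

namespace Crest.Agent.N222.T

/-- the universal covering as a `Gal` -/
def gal {n : ℕ} {N : Type} [TopologicalSpace N] [T2Space N] [CompactSpace N] (R : RAtl n N)
    (U : C.Cov N) : Gal N :=
  have : LocallyCompactSpace N := R.lcM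
  { M := U.T, Γ := U.Γ, cont := fun g => continuous_const_smul g, pr := U.p, loc := U.loc,
    surj := U.qc.surjective, deck := U.p_smul, cocpt := U.cocpt, fin := fun _ hL => U.fin hL hL }

/-- a class forbids degenerate partitions of unity -/
theorem not_deg (h : C.CoreStmt) {n : ℕ} {N : Type} [TopologicalSpace N] [T2Space N]
    [CompactSpace N] (R : RAtl n N) (U : C.Cov N) (hn : 1 ≤ n) (c : C.Cls U n) :
    ¬ Deg n (lift R (gal R U)).M (gal R U).Γ := by
  rintro ⟨P, hP, hK, h0, h1, hv⟩
  have : LocallyCompactSpace N := R.lcM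
  have : CompactSpace R.M := ‹CompactSpace N›
  have : SecondCountableTopology N :=
    ChartedSpace.secondCountable_of_sigmaCompact (EuclideanSpace ℝ (Fin n)) R.M
  have : SecondCountableTopology (lift R (gal R U)).M := U.sc2
  let e : C.Lb U.Γ Unit ≃ U.Γ :=
    ⟨fun y => y.g⁻¹, fun g => ⟨g⁻¹, ()⟩, fun y => C.Lb.ext (inv_inv _) rfl, inv_inv⟩
  let Q : U.T → ℝ := P
  have hp : ∀ x : U.T, C.Prob (C.reg fun _ : Unit => tsupport Q) x fun y => Q (y.g⁻¹ • x) :=
    fun x => ⟨fun _ => h0 _, fun y hy => subset_tsupport _ hy,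
      (finsum_comp_equiv e (f := fun g => Q (g • x))).trans (h1 x)⟩
  obtain ⟨r⟩ := h N U n hn c Unit (fun _ => tsupport Q) (fun _ => hK) fun x => by
    by_contra hx
    push Not at hx
    exact zero_ne_one ((finsum_eq_zero_of_forall_eq_zero fun y =>
      by_contra fun hy => hx y ((hp x).supp y hy)).symm.trans (hp x).sum)
  have hd : ∀ g : (gal R U).Γ,
      MDifferentiable (𝓡 n) 𝓘(ℝ, ℝ) fun x : (lift R (gal R U)).M => P (g • x) := fun g =>
    (hP.comp ((chIso_smul R _ g).contMDiff ((gal R U).cont g))).mdifferentiable (by simp)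
  exact res_false r (t := fun x y => Q (y.g⁻¹ • x)) (fun y => (hd _).continuous) hp
    (fun g x y => by simp [mul_smul]) fun lab f hf =>
    null_lab (M := (lift R (gal R U)).M) r.card (fun y => hd _)
      (fun x => (hv x).imp fun v h => ⟨h.1, fun y => h.2 _⟩) r.M lab hf

theorem ess (h1 : C.CovStmt) (h2 : C.AsphStmt) (h3 : C.CoreStmt) : EssStmt := by
  intro n N _ _ _ _ R hA
  have : CompactSpace R.M := inferInstanceAs (CompactSpace N)
  obtain ⟨U⟩ := h1 n R.M
  refine ⟨gal R U, ?_⟩
  rcases Nat.eq_zero_or_pos n with rfl | hn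
  · rintro ⟨P, -, -, -, -, hP⟩
    obtain ⟨x⟩ : Nonempty U.T := inferInstance
    obtain ⟨v, hv, -⟩ := hP x
    exact hv (Subsingleton.elim (α := EE 0) _ _)
  · obtain ⟨c⟩ := h2 n R.M U hn hA
    exact not_deg h3 R U hn c

end Crest.Agent.N222.T
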