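import Crest.Agent.N222.T.Cov
import Crest.Agent.R275.LnkD1_476

/-!
# Row 222, top level: the two halves of `not_deg` (null image, contradiction with `Res.ess`)
-/

set_option autoImplicit false

open Set Filter Topology MeasureTheory
open scoped Manifold ContDiff

noncomputable section

namespace Crest.Agent.N222.T

/-- a map of rank `< n` on an `n`-manifold, plus `card κ` parameters, has a null image -/
theorem null_img {n : ℕ} {M : Type} [TopologicalSpace M]
    [ChartedSpace (EuclideanSpace ℝ (Fin n)) M] [IsManifold (𝓡 n) ∞ M]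
    [SecondCountableTopology M] {κ τ : Type} [Fintype κ] [Fintype τ]
    (hc : Fintype.card τ = n + Fintype.card κ) {a : M → τ → ℝ}
    (ha : ∀ c, MDifferentiable (𝓡 n) 𝓘(ℝ, ℝ) fun x => a x c)
    (hv : ∀ x, ∃ v : TangentSpace (𝓡 n) x, v ≠ 0 ∧
      ∀ c, mfderiv (𝓡 n) 𝓘(ℝ, ℝ) (fun x => a x c) x v = 0)
    {f : (κ → ℝ) → τ → ℝ} (hf : Differentiable ℝ f) :
    volume (range fun q : M × (κ → ℝ) => a q.1 + f q.2) = 0 := by
  obtain ⟨t, htc, ht⟩ := TopologicalSpace.countable_cover_nhds
    fun x : M => chart_source_mem_nhds (EuclideanSpace ℝ (Fin n)) x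
  let e := fun x : M => chartAt (EuclideanSpace ℝ (Fin n)) x
  refine measure_mono_null (t := ⋃ x ∈ t, (fun q : EuclideanSpace ℝ (Fin n) × (κ → ℝ) =>
    a ((e x).symm q.1) + f q.2) '' ((e x).target ×ˢ univ)) ?_
    ((measure_biUnion_null_iff htc).2 fun x _ => ?_)
  · rintro _ ⟨⟨y, ξ⟩, rfl⟩
    obtain ⟨x, hx, hy⟩ := mem_iUnion₂.1 (ht.symm ▸ mem_univ y)
    exact mem_iUnion₂.2 ⟨x, hx, (e x y, ξ), ⟨(e x).map_source hy, mem_univ _⟩, by
      simp only [(e x).left_inv hy]⟩
  · have he : (e x).symm.MDifferentiable (𝓡 n) (𝓡 n) := (mdifferentiable_chart x).symm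
    have key : ∀ y ∈ (e x).target, ∃ L : EuclideanSpace ℝ (Fin n) →L[ℝ] τ → ℝ,
        HasFDerivAt (fun y => a ((e x).symm y)) L y ∧ ∃ u, u ≠ 0 ∧ L u = 0 := fun y hy => by
      obtain ⟨v, v0, hv'⟩ := hv ((e x).symm y)
      obtain ⟨u, hu⟩ := he.mfderiv_surjective hy v
      have h1 : ∀ c, HasFDerivAt (fun y => a ((e x).symm y) c) _ y := fun c =>
        hasMFDerivAt_iff_hasFDerivAt.1
          ((ha c _).hasMFDerivAt.comp y (he.mdifferentiableAt hy).hasMFDerivAt)
      refine ⟨_, hasFDerivAt_pi.2 h1, u, fun u0 => v0 ?_, funext fun c => ?_⟩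
      · rw [← hu, u0]; exact map_zero _
      · exact (congrArg _ hu).trans (hv' c)
    choose! L hL u u0 hu using key
    refine R275.LnkD1476.sard_image volume (f' := fun q => (L q.1).comp (.fst ℝ _ _) +
      (fderiv ℝ f q.2).comp (.snd ℝ _ _)) (by simp [hc]) (fun q hq => ?_) fun q hq hi => ?_
    · exact (((hL _ hq.1).comp q hasFDerivAt_fst).add
        ((hf q.2).hasFDerivAt.comp q hasFDerivAt_snd)).hasFDerivWithinAt
    · exact u0 _ hq.1 (congrArg Prod.fst (hi (a₁ := (u q.1, 0)) (a₂ := 0) (by simp [hu _ hq.1])))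

/-- the same for a colouring of a family of functions -/
theorem null_lab {n : ℕ} {M : Type} [TopologicalSpace M]
    [ChartedSpace (EuclideanSpace ℝ (Fin n)) M] [IsManifold (𝓡 n) ∞ M]
    [SecondCountableTopology M] {κ τ L : Type} [Fintype κ] [Fintype τ]
    (hc : Fintype.card τ = n + Fintype.card κ) {p : M → L → ℝ}
    (ha : ∀ y, MDifferentiable (𝓡 n) 𝓘(ℝ, ℝ) fun x => p x y)
    (hv : ∀ x, ∃ v : TangentSpace (𝓡 n) x, v ≠ 0 ∧
      ∀ y, mfderiv (𝓡 n) 𝓘(ℝ, ℝ) (fun x => p x y) x v = 0) (m : ℝ) (lab : τ → Option L)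
    {f : (κ → ℝ) → τ → ℝ} (hf : Differentiable ℝ f) :
    volume (range fun q : M × (κ → ℝ) => (fun c => m * (lab c).elim 0 (p q.1)) + f q.2) = 0 := by
  refine null_img hc (a := fun x c => m * (lab c).elim 0 (p x)) (fun c => ?_) (fun x => ?_) hf
  · cases lab c with
    | none => exact mdifferentiable_const (c := m * 0)
    | some y => exact (ha y).const_smul m
  · obtain ⟨v, v0, hv'⟩ := hv x
    refine ⟨v, v0, fun c => ?_⟩
    cases lab c with
    | none => exact DFunLike.congr_fun (mfderiv_const (c := m * 0)) v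
    | some y =>
      exact (DFunLike.congr_fun (const_smul_mfderiv (ha y x) m) v).trans
        ((congrArg (fun s : ℝ => m * s) (hv' y)).trans (mul_zero m))

/-- a null set misses a point of the ball of radius `1/2` -/
theorem exists_miss {τ : Type} [Fintype τ] {A : Set (τ → ℝ)} (h : volume A = 0) :
    ∃ c : τ → ℝ, ‖c‖ < 1 / 2 ∧ c ∉ A := by
  by_contra hn
  push Not at hn
  exact (Metric.measure_ball_pos volume (0 : τ → ℝ) one_half_pos).ne'
    (measure_mono_null (fun c hc => hn c (by simpa using hc)) h)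

open C in
/-- an equivariant family of probability vectors whose colourings have null images contradicts
essentiality -/
theorem res_false {S : Type} [TopologicalSpace S] {U : Cov S} {n : ℕ} {ι : Type}
    {F : ι → Set U.T} (r : Res U n F) {t : U.T → Lb U.Γ ι → ℝ}
    (hc : ∀ y, Continuous fun x => t x y) (hp : ∀ x, Prob (reg F) x (t x))
    (he : ∀ (g : U.Γ) x y, t (g • x) y = t x (g⁻¹ • y))
    (hn : ∀ (lab : r.τ → Option (Lb U.Γ ι)) (f : (r.κ → ℝ) → r.τ → ℝ), Differentiable ℝ f →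
      volume (range fun q : U.T × (r.κ → ℝ) =>
        (fun c => r.M * (lab c).elim 0 (t q.1)) + f q.2) = 0) : False := by
  have := r.Y.cont
  choose lab f hf _ hG using r.G_loc
  let H : U.T × r.Y.Y → r.τ → ℝ := fun z => r.G (t z.1) z.2
  have hinv : ∀ (g : U.Γ) z, H (g • z) = H z := fun g z => by
    rw [← show r.G _ _ = H z from r.G_eqv g (t z.1) z.2]
    exact congrArg (r.G · _) (funext (he g z.1))
  have hch : ∀ η : r.Y.Y, ∃ (w : r.Y.W) (g : U.Γ), g • η ∈ (r.Y.ch w).source := fun η => by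
    by_contra h
    push Not at h
    exact zero_ne_one ((Finset.sum_eq_zero fun w _ =>
      indicator_of_notMem (by rintro ⟨g, hg⟩; exact h w g hg) _).symm.trans (r.Y.t_sum η))
  have hloc : ∀ w (g : U.Γ), ∀ z ∈ r.Z, g • z.2 ∈ (r.Y.ch w).source → H z =
      (fun c => r.M * (lab w c).elim 0 (t (g • z.1))) + f w (r.Y.ch w (g • z.2)) :=
    fun w g z hz h => by
      rw [← hinv g, r.Y.ch_eq]
      exact funext (hG w _ _ _ (r.Z_inv g z hz) h (hp _).supp)
  have hH : ContinuousOn H r.Z := fun z hz => by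
    obtain ⟨w, g, h⟩ := hch z.2
    have h1 : ContinuousAt (fun z : U.T × r.Y.Y => g • z.2) z := by fun_prop
    have h2 : ContinuousAt (fun z : U.T × r.Y.Y => (fun c => r.M * (lab w c).elim 0 (t (g • z.1))) +
        f w (r.Y.ch w (g • z.2))) z := by
      refine (continuousAt_pi.2 fun c => continuousAt_const.mul ?_).add
        ((hf w).continuous.continuousAt.comp (((r.Y.ch w).continuousAt h).comp_of_eq h1 rfl))
      cases lab w c with
      | none => exact continuousAt_const
      | some y => exact ((hc y).comp (continuous_fst.const_smul g)).continuousAt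
    refine (h2.congr ?_).continuousWithinAt
    filter_upwards [r.Z_open.mem_nhds hz, h1.preimage_mem_nhds ((r.Y.ch w).open_source.mem_nhds h)]
      with z' h3 h4 using (hloc w g z' h3 h4).symm
  obtain ⟨c, hc1, hc2⟩ := exists_miss (measure_iUnion_null fun w =>
    hn (lab w) (f w) ((hf w).differentiable (by simp)))
  let ψ : ℝ → ℝ := fun s => max 0 (min 1 (2 - 2 * s))
  have hψ : Continuous ψ := by fun_prop
  obtain ⟨z, hz, h0⟩ := r.ess r.Z r.Z_open r.Z_inv r.Q_sub Subset.rfl
    (fun z => H z - ψ ‖H z‖ • c) (fun g z _ => by simp only [hinv])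
    (hH.sub ((hψ.comp_continuousOn hH.norm).smul continuousOn_const)) r.Q r.Q_cpt r.Q_sub
    fun z hz hQ => ⟨t z.1, hp _, by
      have h1 : 1 < ‖H z‖ := lt_of_not_ge fun h => hQ (r.G_prop _ _ _ hz (hp _) h)
      have h2 : ψ ‖H z‖ = 0 := max_eq_left ((min_le_right _ _).trans (by linarith))
      simp only [h2, zero_smul, sub_zero, H]⟩
  have h1 : H z = ψ ‖H z‖ • c := sub_eq_zero.1 h0
  have h2 : ‖H z‖ ≤ ‖c‖ := by
    rw [h1, norm_smul, Real.norm_of_nonneg (le_max_left _ _)]
    exact mul_le_of_le_one_left (norm_nonneg _) (max_le zero_le_one (min_le_left _ _))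
  have h3 : ψ ‖H z‖ = 1 := by
    simp only [ψ]
    rw [min_eq_left (by linarith), max_eq_right zero_le_one]
  rw [h3, one_smul] at h1
  obtain ⟨w, g, h⟩ := hch z.2
  exact hc2 (mem_iUnion.2 ⟨w, (g • z.1, _), (hloc w g z hz h).symm.trans h1⟩)

end Crest.Agent.N222.T
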