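import Crest.Agent.N222.B.Ind
import Crest.Agent.N222.B.Close
import Crest.Agent.N222.B.Dbl
import Crest.Agent.N222.B.Emb
import Crest.Agent.N222.B.Ess
import Crest.Agent.N222.B.Seq
import Crest.Agent.N222.B.Step0
import Crest.Agent.N222.B.Shield
import Crest.Agent.N222.B.Gen
import Crest.Agent.N222.B.Riesz
import Crest.Agent.N222.B.Weight
import Crest.Agent.N222.B.Mon
import Crest.Agent.N222.B.Mon2
import Crest.Agent.N222.B.Tan
import Crest.Agent.N222.B.Sheet
import Crest.Agent.N222.B.Sim
import Crest.Agent.N222.B.Cal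
import Crest.Agent.N222.B.SSY
import Crest.Agent.N222.B.Blow
import Crest.Agent.N222.B.LV1
import Crest.Agent.N222.B.LV2
import Crest.Agent.N222.B.FL
import Crest.Agent.N222.B.FL2
import Crest.Agent.N222.B.W
import Crest.Agent.N222.B.W2
import Crest.Agent.N222.B.Box
import Crest.Agent.N222.B.QReg
import Crest.Agent.N222.B.Pic
import Crest.Agent.N222.L.Cyl
import Crest.Agent.N222.L.Net
import Crest.Agent.N222.L.AllHt
import Crest.Agent.N222.L.Conv
import Crest.Agent.N222.L.Lim
import Crest.Agent.N222.J.Main
import Crest.Agent.N222.J.Imm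
import Crest.Agent.N222.J.LinA

/-! # Row 222: part B from its leaves -/

set_option autoImplicit false

namespace Crest.Agent.N222

theorem bStmt : BStmt :=
  have m2 := mon2 mon tan
  have bl := blow tan m2 sheet cal
  have hw2 := w2 mon m2 sheet (w mon m2 sheet sim cal bl lv3)
  have hn := net_of hw2 (fl sheet cal bl lv1 lv2) (ssy sim cal) cal
  have hc := cyl_of sheet m2 cal
  have hb := box hc m2 sheet qReg
  b_of (close dbl linA ess4) emb (seq (jang J.perron') bar) step0
    (lim_of hn (conv_of hc hn hb (allHt_of hc hb (fl2 bl lv1) hw2)) pic sheet) ess2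
    (shield gen riesz weight ess1 ess3)

end Crest.Agent.N222
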