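import Crest.Agent.N222.T.GFib

/-!
# Row 222, glue (helper55): the initial data `χ, d, δ`
(filled by helper30)
-/

set_option autoImplicit false
set_option linter.dupNamespace false
set_option linter.unusedSectionVars false
open Set Filter Topology Function
open scoped ContDiff

noncomputable section

namespace Crest.Agent.N222.T

variable {S ι κ : Type} [TopologicalSpace S] [Fintype ι] [Fintype κ] [DecidableEq ι] {n : ℕ}
  {U : C.Cov S} {M : Imm n ι S} {Y : C.Par U.Γ κ} {K0 : ℝ} (L : Lab U.Γ (cN U M) K0)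
  {Q : Set (U.T × Y.Y)}

open Classical in
/-- the transition cocycle -/
def tr (w w' : Y.W) (z : ZZ U Y) : U.Γ :=
  if h : ∃ g : U.Γ, ((phi w').symm z).2 = g • ((phi w).symm z).2 then h.choose else 1

theorem tr_eq {w w' : Y.W} {z : ZZ U Y} {g : U.Γ}
    (h : ((phi w').symm z).2 = g • ((phi w).symm z).2) : tr w w' z = g := by
  have h0 : ∃ g : U.Γ, ((phi w').symm z).2 = g • ((phi w).symm z).2 := ⟨g, h⟩
  rw [tr, dif_pos h0]
  have h2 : (g⁻¹ * h0.choose) • ((phi w).symm z).2 = ((phi w).symm z).2 := by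
    rw [mul_smul, h0.choose_spec.symm.trans h, inv_smul_smul]
  exact (inv_mul_eq_one.1 (U.free' h2)).symm

theorem tr_spec {w w' : Y.W} {z : ZZ U Y} (h : z ∈ (phi w).target) (h' : z ∈ (phi w').target) :
    ((phi w').symm z).2 = tr w w' z • ((phi w).symm z).2 ∧
      ∀ᶠ z' in 𝓝 z, tr w w' z' = tr w w' z := by
  obtain ⟨g, hg⟩ := phi_trans h h'
  have h1 := tr_eq hg.self_of_nhds
  exact ⟨by rw [h1]; exact hg.self_of_nhds, hg.mono fun z' hz' => (tr_eq hz').trans h1.symm⟩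

namespace Gen

variable (H : Gen Y Q (tsupport L.w))

/-- the weights of the charts -/
def aw (w : Y.W) : ZZ U Y → ℝ := push (phi w) fun q => H.lam w q.1 * Y.t w q.1

/-- normalised weights -/
def bw (w : Y.W) (z : ZZ U Y) : ℝ :=
  H.aw L w z / √(∑ w', H.aw L w' z ^ 2 + (1 - ∑ w', H.aw L w' z) ^ 2)

/-- square roots of the initial probabilities -/
def psi (g : Y.W × H.L) (z : ZZ U Y) : ℝ :=
  H.bw L g.1 z * push (phi g.1) (fun q => H.mu g.1 q.1 * L.w ((g.2 : U.Γ)⁻¹ • q.2)) z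

/-- distance to the region of the generator -/
def dd (g : Y.W × H.L) : ZZ U Y → ℝ :=
  push (phi g.1) fun q => H.mu g.1 q.1 * L.d ((g.2 : U.Γ)⁻¹ • q.2)

/-- distance of two generators -/
def del (g g' : Y.W × H.L) (z : ZZ U Y) : ℝ :=
  push (phi g.1) (fun q => H.mu g.1 q.1) z * push (phi g'.1) (fun q => H.mu g'.1 q.1) z *
    L.l ((g.2 : U.Γ)⁻¹ * ((tr g.1 g'.1 z)⁻¹ * g'.2))

theorem dd_phi (g : Y.W × H.L) {ξ : κ → ℝ} (hξ : ξ ∈ H.V g.1) (x : U.T) :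
    H.dd L g (phi g.1 (ξ, x)) = L.d ((g.2 : U.Γ)⁻¹ • x) := by
  rw [dd, push_apply _ (mem_phi_source.2 (H.V_sub _ hξ)), H.mu_one _ _ hξ, one_mul]

theorem aw_sm (w : Y.W) : (zM M Y).Sm (H.aw L w) :=
  sm_push M ((Imm.par_sm_fst (H.lam_sm w)).mul (Imm.par_sm_fst (Y.t_smooth w))) (H.lam_cpt w)
    ((H.lam_sub w).trans (H.V_sub w)) fun _ h => subset_tsupport _ (left_ne_zero_of_mul h)

theorem rad_pos (z : ZZ U Y) :
    0 < ∑ w', H.aw L w' z ^ 2 + (1 - ∑ w', H.aw L w' z) ^ 2 := by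
  have h1 : 0 ≤ ∑ w', H.aw L w' z ^ 2 := Finset.sum_nonneg fun _ _ => sq_nonneg _
  rcases h1.eq_or_lt with h | h
  · have h2 : ∀ w', H.aw L w' z = 0 := fun w' => (pow_eq_zero_iff two_ne_zero).1
      ((Finset.sum_eq_zero_iff_of_nonneg fun _ _ => sq_nonneg _).1 h.symm w' (Finset.mem_univ _))
    simp [h2]
  · exact add_pos_of_pos_of_nonneg h (sq_nonneg _)

theorem bw_sm (w : Y.W) : (zM M Y).Sm (H.bw L w) :=
  (H.aw_sm L w).div (Imm.Sm.sqrt ((Imm.sm_sum _ fun w' _ => (H.aw_sm L w').pow 2).add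
    (((Imm.sm_const 1).sub (Imm.sm_sum _ fun w' _ => H.aw_sm L w')).pow 2))
    fun z => (H.rad_pos L z).ne') fun z => (Real.sqrt_pos.2 (H.rad_pos L z)).ne'

theorem sum_bw_eq (z : ZZ U Y) : ∑ w, H.bw L w z ^ 2 = (∑ w, H.aw L w z ^ 2) /
    (∑ w', H.aw L w' z ^ 2 + (1 - ∑ w', H.aw L w' z) ^ 2) := by
  rw [Finset.sum_div]
  exact Finset.sum_congr rfl fun w _ => by rw [bw, div_pow, Real.sq_sqrt (H.rad_pos L z).le]

theorem sum_bw_le (z : ZZ U Y) : ∑ w, H.bw L w z ^ 2 ≤ 1 := by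
  rw [sum_bw_eq]
  exact (div_le_one (H.rad_pos L z)).2 (le_add_of_nonneg_right (sq_nonneg _))

open Classical in
theorem aw_eq (w : Y.W) (z : ZZ U Y) : H.aw L w z =
    if z ∈ (phi w).target then H.lam w (pZ z) * Y.t w (pZ z) else 0 := by
  rw [aw, push]
  split_ifs with h
  · rw [indicator_of_mem h, phi_symm_fst h]
  · rw [indicator_of_notMem h]

theorem sum_aw {z : ZZ U Y} (hz : z ∈ T.mk '' Q) : ∑ w, H.aw L w z = 1 := by
  refine Eq.trans (Finset.sum_congr rfl fun w _ => ?_) (sum_t z)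
  rw [aw_eq]
  split_ifs with h
  · by_cases h0 : Y.t w (pZ z) = 0
    · rw [h0, mul_zero]
    · rw [H.lam_one w z hz h h0, one_mul]
  · rfl

theorem sum_bw {z : ZZ U Y} (hz : z ∈ T.mk '' Q) : ∑ w, H.bw L w z ^ 2 = 1 := by
  have h := H.rad_pos L z
  rw [sum_bw_eq]
  rw [H.sum_aw L hz, sub_self, zero_pow two_ne_zero, add_zero] at h ⊢
  exact div_self h.ne'

theorem aw_fib (w w' : Y.W) (ξ : κ → ℝ) (x x' : U.T) :
    H.aw L w' (phi w (ξ, x)) = H.aw L w' (phi w (ξ, x')) := by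
  rw [aw_eq, aw_eq, phi_apply, phi_apply]
  by_cases h : ∃ g : U.Γ, g • (Y.ch w).symm ξ ∈ (Y.ch w').source
  · rw [if_pos (mk_mem_target.2 h), if_pos (mk_mem_target.2 h)]
    rfl
  · rw [if_neg (mt mk_mem_target.1 h), if_neg (mt mk_mem_target.1 h)]

/-- the weights do not depend on the fibre coordinate -/
theorem bw_fib (w w' : Y.W) (ξ : κ → ℝ) (x x' : U.T) :
    H.bw L w' (phi w (ξ, x)) = H.bw L w' (phi w (ξ, x')) := by
  have h := fun w' => H.aw_fib L w w' ξ x x'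
  simp only [bw, h]

theorem bw_su {w : Y.W} {z : ZZ U Y} (h : H.bw L w z ≠ 0) :
    z ∈ phi w '' (tsupport (H.lam w) ×ˢ univ) :=
  push_su (f := fun q => H.lam w q.1 * Y.t w q.1)
    (fun _ h => subset_tsupport _ (left_ne_zero_of_mul h))
    fun h0 => h (by rw [bw, show H.aw L w z = 0 from h0, zero_div])

theorem pu_sm (w : Y.W) {h : U.T → ℝ} (hh : (cN U M).Sm h) :
    (zM M Y).Sm (push (phi w) fun q => H.mu w q.1 * h q.2) :=
  sm_push M ((Imm.par_sm_fst (H.mu_sm w)).mul (Imm.par_sm_snd hh)) (H.mu_cpt w) (H.mu_sub w)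
    fun _ h => subset_tsupport _ (left_ne_zero_of_mul h)

theorem psi_sm (g : Y.W × H.L) : (zM M Y).Sm (H.psi L g) :=
  (H.bw_sm L g.1).mul (H.pu_sm L g.1 (L.w_sm.sm.res (loc_smul U M (g.2 : U.Γ)⁻¹)))

theorem dd_sm (g : Y.W × H.L) : (zM M Y).Sm (H.dd L g) :=
  H.pu_sm L g.1 (L.d_sm.res (loc_smul U M (g.2 : U.Γ)⁻¹))

theorem mu_sm' (w : Y.W) : (zM M Y).Sm (push (phi w) fun q => H.mu w q.1) :=
  sm_push M (Imm.par_sm_fst (H.mu_sm w)) (H.mu_cpt w) (H.mu_sub w) fun _ h => subset_tsupport _ h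

theorem mu_ev {w : Y.W} {z : ZZ U Y} (hz : z ∉ (phi w).target) :
    push (phi w) (fun q => H.mu w q.1) =ᶠ[𝓝 z] 0 :=
  push_ev (H.mu_cpt w) (H.mu_sub w) (fun _ h => subset_tsupport _ h) hz

theorem mu_one_ev {w : Y.W} {z : ZZ U Y} (hz : z ∈ phi w '' (H.V w ×ˢ univ)) :
    ∀ᶠ z' in 𝓝 z, push (phi w) (fun q => H.mu w q.1) z' = 1 := by
  have hs : H.V w ×ˢ univ ⊆ (phi (U := U) w).source := fun _ hq => mem_phi_source.2 (H.V_sub w hq.1)
  filter_upwards [((phi w).isOpen_image_of_subset_source ((H.V_open w).prod isOpen_univ)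
    hs).mem_nhds hz]
  rintro _ ⟨q, hq, rfl⟩
  rw [push_apply _ (hs hq), H.mu_one w _ hq.1]

theorem del_sm (g g' : Y.W × H.L) : (zM M Y).Sm (H.del L g g') := by
  refine Imm.sm_of_local fun z => ?_
  by_cases h : z ∈ (phi g.1).target
  · by_cases h' : z ∈ (phi g'.1).target
    · refine ⟨_, ((H.mu_sm' L g.1).mul (H.mu_sm' L g'.1)).mul
        (Imm.sm_const (L.l ((g.2 : U.Γ)⁻¹ * ((tr g.1 g'.1 z)⁻¹ * g'.2)))), ?_⟩
      filter_upwards [(tr_spec h h').2] with z' hz'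
      rw [del, hz']
    · refine ⟨_, Imm.sm_const 0, ?_⟩
      filter_upwards [H.mu_ev L h'] with z' hz'
      rw [del, hz', Pi.zero_apply, mul_zero, zero_mul]
  · refine ⟨_, Imm.sm_const 0, ?_⟩
    filter_upwards [H.mu_ev L h] with z' hz'
    rw [del, hz', Pi.zero_apply, zero_mul, zero_mul]

theorem psi_phi (w : Y.W) (y : H.L) {ξ : κ → ℝ} (hξ : ξ ∈ (Y.ch w).target) (x : U.T) :
    H.psi L (w, y) (phi w (ξ, x)) =
      H.bw L w (phi w (ξ, x)) * H.mu w ξ * L.w ((y : U.Γ)⁻¹ • x) := by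
  rw [psi, push_apply _ (mem_phi_source.2 hξ), mul_assoc]

theorem sum_psi {z : ZZ U Y} (hz : z ∈ T.mk '' Q) : ∑ g, H.psi L g z ^ 2 = 1 := by
  refine Eq.trans ?_ (H.sum_bw L hz)
  rw [Fintype.sum_prod_type]
  refine Finset.sum_congr rfl fun w _ => ?_
  by_cases h : H.bw L w z = 0
  · simp [psi, h]
  obtain ⟨⟨ξ, x⟩, ⟨hξ, -⟩, rfl⟩ := H.bw_su L h
  have hV := H.lam_sub w hξ
  have h1 := L.sum x H.L fun g hg => H.L_mem x (H.D_loc w x ξ hV hz) g (subset_tsupport _ hg)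
  rw [← Finset.sum_coe_sort] at h1
  rw [← mul_one (H.bw L w _ ^ 2), ← h1, Finset.mul_sum]
  refine Finset.sum_congr rfl fun y _ => ?_
  rw [H.psi_phi L w y (H.V_sub w hV), H.mu_one w ξ hV]
  ring

theorem psi_le (g : Y.W × H.L) (z : ZZ U Y) : H.psi L g z ^ 2 ≤ 1 := by
  have h1 : H.bw L g.1 z ^ 2 ≤ 1 := (Finset.single_le_sum (f := fun w => H.bw L w z ^ 2)
    (fun _ _ => sq_nonneg _) (Finset.mem_univ _)).trans (H.sum_bw_le L z)
  rw [psi, mul_pow]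
  refine mul_le_one₀ h1 (sq_nonneg _) ?_
  rw [push]
  by_cases h : z ∈ (phi g.1).target
  · rw [indicator_of_mem h, mul_pow]
    exact mul_le_one₀ (H.mu_le _ _) (sq_nonneg _) (L.le_one _)
  · rw [indicator_of_notMem h, zero_pow two_ne_zero]
    exact zero_le_one

section
variable [DecidableEq κ] (hQ : IsCompact Q) (b : ι → S → ℝ) (hb : ∀ a, M.Sm (b a))
  (ht : M.pre.Tan b)

theorem G0_psi (z : ZZ U Y) :
    ∑ g, 4 * (H.fib M hQ b hb ht).G0 0 (H.psi L g) (H.psi L g) z ≤ K0 - 1 := by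
  obtain ⟨⟨x0, -⟩, -⟩ := mk_surj z
  have hK : 0 ≤ K0 - 1 := by simpa using L.fis x0 ∅
  refine le_trans ?_ (mul_le_of_le_one_left hK (H.sum_bw_le L z))
  rw [Fintype.sum_prod_type, Finset.sum_mul]
  refine Finset.sum_le_sum fun w _ => ?_
  by_cases h : z ∈ (phi w).target
  · obtain ⟨⟨ξ, x⟩, hq, rfl⟩ : ∃ q ∈ (phi w).source, phi w q = z :=
      ⟨_, (phi w).map_target h, (phi w).right_inv h⟩
    have e : ∀ y : H.L, (H.fib M hQ b hb ht).G0 0 (H.psi L (w, y)) (H.psi L (w, y)) (phi w (ξ, x)) =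
        (H.bw L w (phi w (ξ, x)) * H.mu w ξ) ^ 2 *
          (cN U M).pre.gam L.w L.w ((y : U.Γ)⁻¹ • x) := fun y => by
      rw [← (loc_smul U M (y : U.Γ)⁻¹ x).gam_iso]
      exact (H.fib M hQ b hb ht).G0_zero (w := w) (q := (ξ, x)) hq (H.psi_sm L (w, y))
        (L.w_sm.sm.res (loc_smul U M (y : U.Γ)⁻¹)) fun x' =>
          (H.psi_phi L w y (mem_phi_source.1 hq) x').trans (by rw [H.bw_fib L w w ξ x' x])
    have h1 := L.fis x H.L
    rw [← Finset.sum_coe_sort] at h1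
    have h2 : (H.bw L w (phi w (ξ, x)) * H.mu w ξ) ^ 2 ≤ H.bw L w (phi w (ξ, x)) ^ 2 := by
      rw [mul_pow]
      exact mul_le_of_le_one_right (sq_nonneg _) (H.mu_le _ _)
    simp only [e]
    rw [← Finset.mul_sum, ← Finset.mul_sum, mul_left_comm]
    exact mul_le_mul h2 (by linarith) (mul_nonneg (by norm_num)
      (Finset.sum_nonneg fun _ _ => Imm.gam_self_nonneg _ _)) (sq_nonneg _)
  · refine (Finset.sum_eq_zero fun y _ => ?_).le.trans (mul_nonneg (sq_nonneg _) hK)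
    have h1 : H.psi L (w, y) =ᶠ[𝓝 z] fun _ => 0 := by
      filter_upwards [push_ev (f := fun q => H.mu w q.1 * L.w ((y : U.Γ)⁻¹ • q.2)) (H.mu_cpt w)
        (H.mu_sub w) (fun _ h => subset_tsupport _ (left_ne_zero_of_mul h)) h] with z' hz'
      rw [psi, hz', Pi.zero_apply, mul_zero]
    rw [(H.fib M hQ b hb ht).G0_congr 0 h1, (H.fib M hQ b hb ht).G0_const, mul_zero]

theorem G0_dd (g : Y.W × H.L) {ξ : κ → ℝ} (hξ : ξ ∈ H.V g.1) (x : U.T) :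
    (H.fib M hQ b hb ht).G0 0 (H.dd L g) (H.dd L g) (phi g.1 (ξ, x)) + 1 ≤ K0 := by
  have e := (H.fib M hQ b hb ht).G0_zero (w := g.1) (q := (ξ, x))
    (mem_phi_source.2 (H.V_sub _ hξ)) (H.dd_sm L g) (c := 1)
    (L.d_sm.res (loc_smul U M (g.2 : U.Γ)⁻¹)) fun x' => (H.dd_phi L g hξ x').trans (one_mul _).symm
  have e' := (loc_smul U M (g.2 : U.Γ)⁻¹ x).gam_iso L.d L.d
  rw [one_pow, one_mul] at e
  exact (add_le_add_left (e.trans e').le 1).trans (L.d_gam _)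
end

theorem del_ev {g g' : Y.W × H.L} {z : ZZ U Y} (h : z ∈ phi g.1 '' (H.V g.1 ×ˢ univ))
    (h' : z ∈ phi g'.1 '' (H.V g'.1 ×ˢ univ)) :
    (H.del L g g' =ᶠ[𝓝 z] fun _ => H.del L g g' z) ∧
      H.dd L g z - H.dd L g' z ≤ H.del L g g' z ∧ H.del L g g' z ≤ H.dd L g z + H.dd L g' z := by
  have e1 := H.mu_one_ev L h
  have e2 := H.mu_one_ev L h'
  obtain ⟨⟨ξ, x⟩, ⟨hξ, -⟩, hz⟩ := h
  obtain ⟨⟨ξ', x'⟩, ⟨hξ', -⟩, hz'⟩ := h'
  have s1 : (ξ, x) ∈ (phi g.1).source := mem_phi_source.2 (H.V_sub _ hξ)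
  have s2 : (ξ', x') ∈ (phi g'.1).source := mem_phi_source.2 (H.V_sub _ hξ')
  obtain ⟨t1, t2⟩ := tr_spec (hz ▸ (phi g.1).map_source s1) (hz' ▸ (phi g'.1).map_source s2)
  have t3 : x' = tr g.1 g'.1 z • x := by
    have a1 : (phi g.1).symm z = (ξ, x) := hz ▸ (phi g.1).left_inv s1
    have a2 : (phi g'.1).symm z = (ξ', x') := hz' ▸ (phi g'.1).left_inv s2
    rwa [a1, a2] at t1
  have e3 : ∀ᶠ z' in 𝓝 z, H.del L g g' z' =
      L.l ((g.2 : U.Γ)⁻¹ * ((tr g.1 g'.1 z)⁻¹ * g'.2)) := by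
    filter_upwards [e1, e2, t2] with z' a1 a2 a3
    rw [del, a1, a2, a3, one_mul, one_mul]
  have d1 : H.dd L g z = L.d ((g.2 : U.Γ)⁻¹ • x) := hz ▸ H.dd_phi L g hξ x
  have d2 : H.dd L g' z = L.d (((tr g.1 g'.1 z)⁻¹ * g'.2)⁻¹ • x) := by
    rw [mul_inv_rev, inv_inv, mul_smul, ← t3]
    exact hz' ▸ H.dd_phi L g' hξ' x'
  rw [d1, d2, e3.self_of_nhds]
  exact ⟨e3, L.d_sub _ _ _, L.d_add _ _ _⟩

theorem data [DecidableEq κ] (hQ : IsCompact Q) (b : ι → S → ℝ) (hb : ∀ a, M.Sm (b a))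
    (ht : M.pre.Tan b) :
    (H.fib M hQ b hb ht).Data K0 (fun g z => H.psi L g z ^ 2) (H.dd L) (H.del L) := by
  refine ⟨fun g => (H.psi_sm L g).pow 2, H.dd_sm L, H.del_sm L, fun g => ⟨_, H.lam_cpt g.1,
    H.lam_sub g.1, fun z h => H.bw_su L fun h0 => h (by
      have h1 : H.bw L g.1 z = 0 := h0
      simp [psi, h1])⟩,
    fun g z => ⟨sq_nonneg _, H.psi_le L g z⟩, ?_⟩
  obtain ⟨N, hN⟩ : ∃ N : ℝ, N = Fintype.card (Y.W × H.L) := ⟨_, rfl⟩
  have hN0 : 0 < 4 * N + 1 := by rw [hN]; positivity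
  filter_upwards [eventually_all.2 fun g : Y.W × H.L =>
      (H.fib M hQ b hb ht).G0_ev (H.psi_sm L g) (one_div_pos.2 hN0),
    eventually_all.2 fun g : Y.W × H.L => (H.fib M hQ b hb ht).G0_ev (H.dd_sm L g) one_pos]
    with s h1 h2 p hp
  refine ⟨H.sum_psi L hp, ⟨fun g => 4 * (H.fib M hQ b hb ht).G0 s (H.psi L g) (H.psi L g) p,
    fun g => ⟨mul_nonneg (by norm_num) (A.Fib.G0_nonneg _ _ _ _),
      ((H.fib M hQ b hb ht).G0_sq s (H.psi_sm L g) p).le⟩, ?_⟩, fun g hg => ?_,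
    fun g g' hg hg' => ?_⟩
  · have h3 : ∑ g : Y.W × H.L, 4 * (H.fib M hQ b hb ht).G0 s (H.psi L g) (H.psi L g) p ≤
        ∑ g : Y.W × H.L, (4 * (H.fib M hQ b hb ht).G0 0 (H.psi L g) (H.psi L g) p +
          4 * (1 / (4 * N + 1))) := Finset.sum_le_sum fun g _ => by linarith [h1 g p hp]
    rw [Finset.sum_add_distrib, Finset.sum_const, Finset.card_univ, nsmul_eq_mul, ← hN] at h3
    have h4 := H.G0_psi L hQ b hb ht p
    have h5 : N * (4 * (1 / (4 * N + 1))) ≤ 1 := by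
      rw [← mul_assoc, mul_one_div, div_le_one hN0]
      linarith
    exact h3.trans (by linarith)
  · obtain ⟨⟨ξ, x⟩, ⟨hξ, -⟩, rfl⟩ : p ∈ phi g.1 '' (H.V g.1 ×ˢ univ) := hg
    refine ⟨(h2 g _ hp).trans (H.G0_dd L hQ b hb ht g hξ x), fun h0 => ?_⟩
    refine (H.dd_phi L g hξ x).trans_le (L.d_one _ fun h3 => ?_)
    have h4 := H.psi_phi L g.1 g.2 (H.V_sub _ hξ) x
    rw [h3, mul_zero] at h4
    exact (pow_ne_zero_iff two_ne_zero).1 h0.ne' h4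
  · obtain ⟨h3, h4⟩ := H.del_ev L hg hg'
    exact ⟨((H.fib M hQ b hb ht).G0_congr s h3).trans (A.Fib.G0_const _ _ _ _), h4⟩

end Gen

end Crest.Agent.N222.T

end
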