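import Crest.Agent.N222.T.Quot

/-!
# Row 222, glue (helper55): the map `G (P, η)` on the quotient (no smoothness here)
(filled by helper44)
-/

set_option autoImplicit false
set_option linter.dupNamespace false
set_option linter.unusedSectionVars false
open Set Filter Topology Function

noncomputable section

namespace Crest.Agent.N222.T

variable {S : Type} [TopologicalSpace S] {U : C.Cov S} {n : ℕ} {F : Unit → Set U.T}
  (R : C.Res U n F) {G : Type} [Fintype G] (w : G → R.Y.W) (y : G → U.Γ)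
  (P : G → ZZ U R.Y → ℝ)

open Classical in
/-- the probability vector on the labels -/
def tt (z : U.T × R.Y.Y) (l : C.Lb U.Γ Unit) : ℝ :=
  ∑ g, if (y g * l.g⁻¹) • z.2 ∈ (R.Y.ch (w g)).source then P g (mk z) else 0

theorem tt_smul (γ : U.Γ) (z : U.T × R.Y.Y) :
    tt R w y P (γ • z) = fun l => tt R w y P z (γ⁻¹ • l) := by
  funext l
  have e : ∀ g, (y g * l.g⁻¹) • (γ • z).2 = (y g * ((γ⁻¹ • l).g)⁻¹) • z.2 := fun g => by
    rw [C.Lb.smul_g, mul_inv_rev, inv_inv, Prod.smul_snd, smul_smul, mul_assoc]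
  unfold tt
  exact Finset.sum_congr rfl fun g _ => by rw [e g, mk_smul]

/-- the map -/
def aa : ZZ U R.Y → R.τ → ℝ := desc (fun z => R.G (tt R w y P z) z.2) fun γ z => by
  rw [tt_smul]; exact R.G_eqv γ _ z.2

theorem aa_mk (z : U.T × R.Y.Y) : aa R w y P (mk z) = R.G (tt R w y P z) z.2 := rfl

/-- the smooth part of `G` in the chart `v` -/
def ff (v : R.Y.W) : (R.κ → ℝ) → R.τ → ℝ := (R.G_loc v).choose_spec.choose

theorem ff_sm (v : R.Y.W) : ContDiff ℝ (⊤ : ℕ∞) (ff R v) := (R.G_loc v).choose_spec.choose_spec.1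

/-- the hypotheses on the output of part A -/
structure Good (Om : Set (ZZ U R.Y)) : Prop where
  nn : ∀ g z, 0 ≤ P g z
  su : ∀ g, ∃ K, IsCompact K ∧ K ⊆ (R.Y.ch (w g)).target ∧
    ∀ z, P g z ≠ 0 → z ∈ phi (w g) '' (K ×ˢ univ)
  sum : ∀ z ∈ Om, ∑ g, P g z = 1
  reg : ∀ g, ∀ q ∈ (phi (w g)).source, phi (w g) q ∈ Om → P g (phi (w g) q) ≠ 0 →
    (y g)⁻¹ • q.2 ∈ F ()
  sub : ∀ z, mk z ∈ Om → z ∈ R.Z

variable {R w y P} {Om : Set (ZZ U R.Y)}

theorem mk_eq_phi {κ : Type} [Fintype κ] {Y : C.Par U.Γ κ} {v : Y.W} {γ : U.Γ} {z : U.T × Y.Y}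
    (h : γ • z.2 ∈ (Y.ch v).source) : phi v (Y.π z.2, γ • z.1) = T.mk z := by
  rw [phi_apply, Y.symm_π h]
  exact mk_smul γ z

open Classical in
/-- each generator contributes to exactly one label -/
theorem Good.exists_lb (h : Good R w y P Om) (z : U.T × R.Y.Y) (g : G) :
    ∃ l0 : C.Lb U.Γ Unit, ∀ l : C.Lb U.Γ Unit,
      (if (y g * l.g⁻¹) • z.2 ∈ (R.Y.ch (w g)).source then P g (T.mk z) else 0) =
        if l = l0 then P g (T.mk z) else 0 := by
  by_cases hγ : ∃ γ : U.Γ, γ • z.2 ∈ (R.Y.ch (w g)).source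
  · obtain ⟨γ, hγ⟩ := hγ
    refine ⟨⟨γ⁻¹ * y g, ()⟩, fun l => if_congr ⟨fun hl => ?_, fun hl => ?_⟩ rfl rfl⟩
    · refine C.Lb.ext ?_ rfl
      rw [← R.Y.uniq hl hγ]
      simp
    · rw [hl]
      simpa using hγ
  · have h0 : P g (T.mk z) = 0 := by
      by_contra h0
      obtain ⟨K, -, hK, hP⟩ := h.su g
      obtain ⟨q, hq, e⟩ := hP _ h0
      have := (phi (w g)).map_source (mem_phi_source.2 (hK hq.1))
      rw [e] at this
      exact hγ (mk_mem_target.1 this)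
    exact ⟨⟨1, ()⟩, fun l => by rw [h0, ite_self, ite_self]⟩

theorem Good.prob (h : Good R w y P Om) {z : U.T × R.Y.Y} (hz : T.mk z ∈ Om) :
    C.Prob (C.reg F) z.1 (tt R w y P z) := by
  classical
  refine ⟨fun l => Finset.sum_nonneg fun g _ => ?_, fun l hl => ?_, ?_⟩
  · split_ifs
    exacts [h.nn _ _, le_rfl]
  · obtain ⟨g, -, hg⟩ := Finset.exists_ne_zero_of_sum_ne_zero hl
    obtain ⟨h1, h2⟩ := ite_ne_right_iff.1 hg
    have := h.reg g (R.Y.π z.2, (y g * l.g⁻¹) • z.1) (mem_phi_source.2 (R.Y.π_mem h1))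
      (by rwa [mk_eq_phi h1]) (by rwa [mk_eq_phi h1])
    rw [smul_smul, inv_mul_cancel_left] at this
    exact this
  · choose l0 hl0 using h.exists_lb z
    have e : tt R w y P z = fun l => ∑ g, if l = l0 g then P g (T.mk z) else 0 :=
      funext fun l => Finset.sum_congr rfl fun g _ => by convert hl0 g l
    rw [e, finsum_sum_comm, ← h.sum _ hz]
    · refine Finset.sum_congr rfl fun g _ => ?_
      rw [finsum_eq_single _ (l0 g) fun l hl => if_neg hl, if_pos rfl]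
    · intro g _
      exact (Set.finite_singleton (l0 g)).subset fun l hl => (ite_ne_right_iff.1 hl).1

open Classical in
/-- the active deck transformation of a generator is locally constant -/
theorem Good.ev (h : Good R w y P Om) (z : U.T × R.Y.Y) (g : G) (γ : U.Γ) :
    ∀ᶠ q in 𝓝 z, (if γ • q.2 ∈ (R.Y.ch (w g)).source then P g (T.mk q) else 0) =
      if γ • z.2 ∈ (R.Y.ch (w g)).source then P g (T.mk q) else 0 := by
  have hc : Continuous fun q : U.T × R.Y.Y => γ • q.2 :=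
    (continuous_const_smul γ).comp continuous_snd
  by_cases hγ : γ • z.2 ∈ (R.Y.ch (w g)).source
  · filter_upwards [hc.continuousAt.preimage_mem_nhds ((R.Y.ch (w g)).open_source.mem_nhds hγ)]
      with q hq
    rw [if_pos hγ]
    exact if_pos hq
  · obtain ⟨K, hKc, hK, hP⟩ := h.su g
    have hcl : IsClosed ((R.Y.ch (w g)).symm '' K) :=
      (hKc.image_of_continuousOn ((R.Y.ch (w g)).continuousOn_symm.mono hK)).isClosed
    have hn : γ • z.2 ∈ ((R.Y.ch (w g)).symm '' K)ᶜ := by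
      rintro ⟨ξ, hξ, e⟩
      exact hγ (e ▸ (R.Y.ch (w g)).map_target (hK hξ))
    filter_upwards [hc.continuousAt.preimage_mem_nhds (hcl.isOpen_compl.mem_nhds hn)] with q hq
    rw [if_neg hγ]
    refine ite_eq_right_iff.2 fun h1 => ?_
    by_contra h0
    obtain ⟨q', hq', e⟩ := hP _ h0
    have h2 := pZ_phi (mem_phi_source.2 (hK hq'.1))
    rw [e, pZ_mk] at h2
    exact hq ⟨_, hq'.1, by rw [← h2, R.Y.symm_π h1]⟩

/-- the local form of the map -/
theorem Good.loc (h : Good R w y P Om) {z : ZZ U R.Y} (hz : Om ∈ 𝓝 z) :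
    ∃ (v : R.Y.W) (A : R.τ → Finset G), (∀ c c' g, g ∈ A c → g ∈ A c' → c = c') ∧
      ∀ c, (fun p => aa R w y P p c) =ᶠ[𝓝 z]
        fun p => R.M * ∑ g ∈ A c, P g p + ff R v (pZ p) c := by
  classical
  obtain ⟨z0, rfl⟩ := mk_surj z
  obtain ⟨v, γ0, hv, -⟩ := R.Y.exists_chart z0.2
  rw [← mk_smul γ0 z0] at hz ⊢
  change (γ0 • z0).2 ∈ _ at hv
  generalize γ0 • z0 = z1 at hz hv
  obtain ⟨-, hinj, hG⟩ := (R.G_loc v).choose_spec.choose_spec
  set lab := (R.G_loc v).choose with hlab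
  refine ⟨v, fun c => Finset.univ.filter fun g =>
    ∃ l, lab c = some l ∧ (y g * l.g⁻¹) • z1.2 ∈ (R.Y.ch (w g)).source, ?_, fun c => ?_⟩
  · intro c c' g hc hc'
    obtain ⟨l, hl, h1⟩ := (Finset.mem_filter.1 hc).2
    obtain ⟨l', hl', h1'⟩ := (Finset.mem_filter.1 hc').2
    have e : l = l' := C.Lb.ext (inv_injective (mul_left_cancel (R.Y.uniq h1 h1'))) rfl
    exact hinj c c' l hl (e ▸ hl')
  · have h1 : ∀ᶠ q in 𝓝 z1, T.mk q ∈ Om := continuous_mk.continuousAt.preimage_mem_nhds hz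
    have h2 : ∀ᶠ q : U.T × R.Y.Y in 𝓝 z1, q.2 ∈ (R.Y.ch v).source :=
      continuous_snd.continuousAt.preimage_mem_nhds ((R.Y.ch v).open_source.mem_nhds hv)
    have h3 : ∀ᶠ q in 𝓝 z1, (lab c).elim 0 (tt R w y P q) = ∑ g ∈ Finset.univ.filter fun g =>
        ∃ l, lab c = some l ∧ (y g * l.g⁻¹) • z1.2 ∈ (R.Y.ch (w g)).source, P g (T.mk q) := by
      cases hc : lab c with
      | none => simp
      | some l =>
        filter_upwards [eventually_all.2 fun g => h.ev z1 g (y g * l.g⁻¹)] with q hq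
        rw [Finset.sum_filter, Option.elim_some]
        refine Finset.sum_congr rfl fun g _ => ?_
        refine Eq.trans (by convert hq g) (if_congr ?_ rfl rfl)
        simp
    refine mem_of_superset (isOpenMap_mk.image_mem_nhds (h1.and (h2.and h3))) ?_
    rintro _ ⟨q, ⟨a1, a2, a3⟩, rfl⟩
    change aa R w y P (T.mk q) c = _
    rw [aa_mk, hG q.1 q.2 _ (h.sub q a1) a2 (h.prob a1).supp c, a3]
    rfl

theorem Good.big (h : Good R w y P Om) {z : ZZ U R.Y} (hz : z ∈ Om) (hQ : z ∉ T.mk '' R.Q) :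
    1 ≤ ∑ c, aa R w y P z c ^ 2 := by
  obtain ⟨q, rfl⟩ := mk_surj z
  by_contra hlt
  have h1 : ‖aa R w y P (T.mk q)‖ ≤ 1 := by
    refine (pi_norm_le_iff_of_nonneg zero_le_one).2 fun c => ?_
    have := Finset.single_le_sum (f := fun c => aa R w y P (T.mk q) c ^ 2)
      (fun c _ => sq_nonneg _) (Finset.mem_univ c)
    rw [Real.norm_eq_abs, ← sq_le_one_iff_abs_le_one]
    exact this.trans (not_le.1 hlt).le
  obtain ⟨g, hg⟩ := R.G_prop q.1 q.2 _ (h.sub q hz) (h.prob hz) h1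
  exact hQ ⟨_, hg, mk_smul g q⟩

/-- essentiality on the quotient -/
theorem Good.ess {Q : Set (U.T × R.Y.Y)} (hQ : IsCompact Q)
    (h : Good R w y P (T.mk '' Q)) {om : ZZ U R.Y → ℝ} (h1 : ∀ z ∈ T.mk '' R.Q, om z ≠ 0)
    {X : Set (ZZ U R.Y)} (hX : IsOpen X) (hs : tsupport om ⊆ X) (hXQ : X ⊆ T.mk '' Q)
    {b : ZZ U R.Y → R.τ → ℝ} (hb : Continuous b)
    (e : ∀ z ∈ X, om z = 0 → b z = aa R w y P z) : ∃ z, om z ≠ 0 ∧ b z = 0 := by
  obtain ⟨z, hz, hz0⟩ := R.ess (T.mk ⁻¹' X) (hX.preimage continuous_mk)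
    (fun g z hz => by rwa [mem_preimage, mk_smul])
    (fun z hz => hs (subset_tsupport _ (h1 _ ⟨z, hz, rfl⟩)))
    (fun z hz => h.sub z (hXQ hz)) (fun z => b (T.mk z)) (fun g z _ => by rw [mk_smul])
    (hb.comp continuous_mk).continuousOn (Q ∩ T.mk ⁻¹' tsupport om)
    (hQ.inter_right ((isClosed_tsupport om).preimage continuous_mk)) (fun z hz => hs hz.2)
    (fun z hz hn => by
      refine ⟨_, h.prob (hXQ hz), (e _ hz ?_).trans (aa_mk R w y P z)⟩
      by_contra h0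
      obtain ⟨q, hq, hq'⟩ := hXQ hz
      obtain ⟨g, rfl⟩ := mk_eq.1 hq'
      exact hn ⟨g, hq, by rw [mem_preimage, mk_smul]; exact subset_tsupport _ h0⟩)
  refine ⟨T.mk z, fun h0 => ?_, hz0⟩
  have := h.big (hXQ hz) fun hq => h1 _ hq h0
  rw [← e _ hz h0] at this
  simp only [show b (T.mk z) = 0 from hz0, Pi.zero_apply] at this
  norm_num at this

end Crest.Agent.N222.T

end
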