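import Crest.Agent.N222.T.Defs
import Crest.Agent.N222.T.GDat
import Crest.Agent.N222.T.GOut
import Crest.Agent.N222.B.Pic

/-!
# Row 222, glue (helper55): `AFStmt`, `CoreStmt`, `BStmt` give `NoPosImm`
-/

set_option autoImplicit false
set_option linter.dupNamespace false
set_option linter.unusedSectionVars false
open Set Filter Topology Function
open scoped ContDiff

noncomputable section

namespace Crest.Agent.N222.T

/-- the last step: from local formulas to the form class -/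
theorem last_step (hB : BStmt) {d : ℕ} {ι X τ G W : Type} [Fintype ι] [DecidableEq ι] [Fintype τ]
    [Fintype G] [TopologicalSpace X] [T2Space X] [SecondCountableTopology X] (hτ : τ ≃ Fin d)
    (M : Imm d ι X) {b : ι → X → ℝ} (hb : ∀ a, M.Sm (b a)) (ht : M.pre.Tan b) {om : X → ℝ}
    (ho : M.Tst om) (h01 : ∀ p, 0 ≤ om p ∧ om p ≤ 1) {O : Set X} (hO : IsOpen O)
    (hs : tsupport om ⊆ O) {P : G → X → ℝ} (hP : ∀ g, M.Sm (P g)) (hP0 : ∀ g p, 0 ≤ P g p)
    {h : W → τ → X → ℝ} (hh : ∀ v c, M.Sm (h v c)) {a : X → τ → ℝ} {m s0 C lam Λ e s' : ℝ}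
    (hl : 0 < lam) (hs' : 0 < s')
    (hc : ∀ (ψ gψ I V : ℝ) (a r : Fin d → ℝ),
      0 ≤ ψ → ψ ≤ 1 → 0 ≤ gψ → gψ ≤ C → 0 ≤ I → s0 / 4 + Λ * I ≤ V → (∀ c, 0 ≤ r c) →
      ∑ c, r c ^ 2 ≤ 2 * m ^ 2 * I + 2 * e → (ψ = 1 ∧ gψ = 0) ∨ 1 ≤ ∑ c, a c ^ 2 →
      s' + ∑ c, 2 * (ψ * (lam * r c) + |lam * a c| * gψ) ≤ V * ψ ^ 2 + ∑ c, (lam * a c) ^ 2)
    (hC : 0 ≤ C)
    (hloc : ∀ z ∈ O, ∃ (v : W) (A : τ → Finset G), (∀ c c' g, g ∈ A c → g ∈ A c' → c = c') ∧
      ∀ c, (fun p => a p c) =ᶠ[𝓝 z] fun p => m * ∑ g ∈ A c, P g p + h v c p)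
    (hout : ∀ p ∈ O, ∑ g, P g p = 1 ∧ ∃ (j : G → ℝ) (I : ℝ),
      (∀ g, 0 ≤ j g ∧ M.pre.gam (P g) (P g) p ≤ j g * P g p) ∧ ∑ g, j g ≤ I ∧
        s0 / 4 + Λ * I ≤ M.pre.Eb b p)
    (hom : ∀ p ∈ O, M.pre.gam (fun q => om q ^ 2) (fun q => om q ^ 2) p ≤ C ^ 2)
    (hhe : ∀ v, ∀ p ∈ O, ∑ c, M.pre.gam (h v c) (h v c) p ≤ e)
    (hbig : ∀ p ∈ O, (om =ᶠ[𝓝 p] fun _ => 1) ∨ 1 ≤ ∑ c, a p c ^ 2)
    (hess : ∀ O' : Set X, IsOpen O' → tsupport om ⊆ O' → O' ⊆ O → ∀ f : X → τ → ℝ, Continuous f →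
      (∀ z ∈ O', om z = 0 → f z = a z) → ∃ z, om z ≠ 0 ∧ f z = 0) : False := by
  let : MeasurableSpace X := borel X
  have : BorelSpace X := ⟨rfl⟩
  have hon : ∀ c, M.SmOn O fun p => a p c := fun c p hp => by
    obtain ⟨v, A, -, e⟩ := hloc p hp
    have := (((Imm.sm_const m).mul (Imm.sm_sum (A c) fun g _ => hP g)).add (hh v c)).smOn O p hp
    exact this.congr_of_eventuallyEq (symm_eventuallyEq (M.mem p) (e c))
  choose a' ha' _ _ hea using fun c => (hon c).exists_sm hO ho.cs.isCompact hs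
  have hea' : ∀ᶠ p in 𝓝ˢ (tsupport om), ∀ c, a' c p = a p c := eventually_all.2 hea
  obtain ⟨O1, hO1, hs1, he1⟩ := eventually_nhdsSet_iff_exists.1 hea'
  refine hB d ι X M (M.pre.Eb b) om (fun i p => lam * a' (hτ.symm i) p)
    ⟨Imm.sm_Eb hb, ho, fun i => (Imm.sm_const lam).mul (ha' _), fun z hz =>
      drift d ι X M b _ hb ht (Imm.sm_Eb hb) z hz fun _ _ => le_rfl, ⟨s', hs', fun p hp => ?_⟩, ?_⟩
  · have hp1 : p ∈ tsupport om := subset_tsupport _ hp
    have hpO := hs hp1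
    obtain ⟨v, A, hA, e1⟩ := hloc p hpO
    obtain ⟨h1, j, I, hj, hI, hE⟩ := hout p hpO
    have e2 : ∀ c, a' c =ᶠ[𝓝 p] fun q => m * ∑ g ∈ A c, P g q + h v c q := fun c =>
      EventuallyEq.trans (eventually_of_mem (hO1.mem_nhds (hs1 hp1)) fun q hq => he1 q hq c) (e1 c)
    have h2 := grad_le M hP (hh v) hA (hP0 · p) h1 hj m e2
    have hI0 : 0 ≤ I := (Finset.sum_nonneg fun g _ => (hj g).1).trans hI
    have h3 := hc (om p ^ 2) (√(M.pre.gam (fun q => om q ^ 2) (fun q => om q ^ 2) p)) I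
      (M.pre.Eb b p) (fun i => a' (hτ.symm i) p)
      (fun i => √(M.pre.gam (a' (hτ.symm i)) (a' (hτ.symm i)) p)) (sq_nonneg _)
      (pow_le_one₀ (h01 p).1 (h01 p).2) (Real.sqrt_nonneg _)
      (Real.sqrt_le_iff.2 ⟨hC, hom p hpO⟩) hI0 hE (fun _ => Real.sqrt_nonneg _) (by
        simp only [Real.sq_sqrt (Imm.gam_self_nonneg _ _)]
        rw [hτ.symm.sum_comp fun c => M.pre.gam (a' c) (a' c) p]
        have := hhe v p hpO
        have := mul_le_mul_of_nonneg_left hI (by positivity : 0 ≤ 2 * m ^ 2)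
        linarith) (by
        rcases hbig p hpO with h4 | h4
        · refine Or.inl ⟨by rw [h4.self_of_nhds]; norm_num, ?_⟩
          have h5 : (fun q => om q ^ 2) =ᶠ[𝓝 p] fun _ => 1 := h4.mono fun q hq => by simp [hq]
          simp [Imm.gam_apply, Imm.D_congr h5, Imm.D_const]
        · refine Or.inr ?_
          rw [hτ.symm.sum_comp fun c => a' c p ^ 2]
          simpa only [he1 p (hs1 hp1)] using h4)
    have h4 : ∑ i, M.cost om (fun q => lam * a' (hτ.symm i) q) p ≤ _ :=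
      Finset.sum_le_sum fun i _ => (cost_le M om _ p).trans (le_of_eq (by
        have : M.pre.gam (fun q => lam * a' (hτ.symm i) q) (fun q => lam * a' (hτ.symm i) q) p =
            lam ^ 2 * M.pre.gam (a' (hτ.symm i)) (a' (hτ.symm i)) p := by
          simp only [Imm.gam_apply, Imm.D_const_mul lam ((ha' _).diffAt p), Finset.mul_sum]
          exact Finset.sum_congr rfl fun _ _ => by ring
        rw [this, Real.sqrt_mul (sq_nonneg _), Real.sqrt_sq hl.le]))
    have h5 : om p ^ 4 = (om p ^ 2) ^ 2 := by ring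
    rw [h5]
    linarith
  · intro f hf he
    obtain ⟨z, hz, h0⟩ := hess (O1 ∩ O) (hO1.inter hO) (subset_inter hs1 hs) inter_subset_right
      (fun z c => lam⁻¹ * f (hτ c) z)
      (continuous_pi fun c => continuous_const.mul (hf _)) fun z hz h0 => funext fun c => by
        rw [he z h0]
        simp only [Equiv.symm_apply_apply, he1 z hz.1, inv_mul_cancel_left₀ hl.ne']
    refine ⟨z, hz, fun i => ?_⟩
    have := congrFun h0 (hτ.symm i)
    simpa [hl.ne'] using this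

theorem noPosImm (hA : A.AFStmt) (hC : C.CoreStmt) (hB : BStmt) : NoPosImm := by
  intro n ι _ _ S _ _ _ _ _ M b hn _ hb ht hE U cls
  classical
  obtain ⟨p0, -, hp0⟩ := isCompact_univ.exists_isMinOn univ_nonempty
    (Imm.sm_Eb hb).continuous.continuousOn
  obtain ⟨K0, hK, ⟨L⟩⟩ := exists_lab U M
  obtain ⟨ρ, I1, hAF⟩ := hA n _ K0 (hE p0) hK
  obtain ⟨R⟩ := hC S U n hn cls Unit (fun _ => {x | L.d x ≤ max ρ 1}) (fun _ => L.cpt _) fun x => by
    obtain ⟨g, hg⟩ := L.cover x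
    exact ⟨⟨g, ()⟩, (L.d_one _ hg).trans (le_max_right _ _)⟩
  obtain ⟨Q, hQ, hQ1, hQ2⟩ := exists_compact_between R.Q_cpt R.Z_open R.Q_sub
  obtain ⟨H⟩ := exists_gen (Y := R.Y) hQ L.w_sm.cs.isCompact
  have := R.cntY
  have : SecondCountableTopology (ZZ U R.Y) := scZ
  have hO : mk '' R.Q ⊆ interior (mk '' Q) := (image_mono hQ1).trans
    (interior_maximal (image_mono interior_subset) (isOpenMap_mk _ isOpen_interior))
  obtain ⟨om, ho, hs, h01, h1⟩ := (zM M R.Y).exists_bump (R.Q_cpt.image continuous_mk)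
    isOpen_interior hO
  set Fb := H.fib M hQ b hb ht with hFb
  obtain ⟨C, hC0, hCe⟩ := Fb.G0_bdd (f := fun q => om q ^ 2) (ho.sm.pow 2)
  obtain ⟨lam, Λ, e, s', hl, hΛ, he, hs', hc⟩ :=
    exists_const (M.pre.Eb b p0) C R.M (n + Fintype.card R.κ) (hE p0) hC0
  obtain ⟨P, hP, hev⟩ := hAF ι R.κ U.T (ZZ U R.Y) Fb _ _ _ Λ (fun x => by
    have := congrFun ((hom_iso (loc_p U M)).Eb b) x
    exact (hp0 (mem_univ (U.p x))).trans (le_of_eq this)) (H.data L hQ b hb ht) hΛ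
  have hf : ∀ v c, (zM M R.Y).Sm fun z => ff R v (pZ z) c := fun v c =>
    sm_pZ M R.Y (r := fun ξ => ff R v ξ c) (contDiff_pi.1 (ff_sm R v) c)
  have he' : 0 < e / (Fintype.card R.τ + 1) := by positivity
  have hsm : ∀ᶠ s in 𝓝[≠] (0 : ℝ), ∀ v c, ∀ p ∈ Fb.Om, Fb.G0 s (fun z => ff R v (pZ z) c)
      (fun z => ff R v (pZ z) c) p ≤ e / (Fintype.card R.τ + 1) :=
    eventually_all.2 fun v => eventually_all.2 fun c =>
      (Fb.G0_ev (hf v c) he').mono fun s hs p hp => by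
        obtain ⟨w, q, hq, rfl⟩ := Fb.exists_q p
        have := Fb.G0_zero hq (hf v c) (c := 0 + ff R v q.1 c) (h := fun _ => 1) (Imm.sm_const 1)
          fun x => by
            have : pZ (phi w (q.1, x)) = q.1 := pZ_phi (q := (q.1, x))
              (mem_phi_source.2 ((mem_phi_source (q := q)).1 hq))
            rw [zero_add, mul_one]
            exact congrArg (ff R v · c) this
        have h2 := hs _ hp
        rw [this] at h2
        simpa [Imm.gam_apply, Imm.D_const] using h2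
  obtain ⟨s, ⟨ι', _, _, M', b', hch, hb', ht', hg, hout⟩, hs1, hs2⟩ :=
    (hev.and (hCe.and hsm)).exists
  have hsm' : ∀ {f : ZZ U R.Y → ℝ}, (zM M R.Y).Sm f → M'.Sm f := fun {f} hf => by
    change SmA M'.ch f
    rw [hch]; exact hf
  have hG : Good R (G := R.Y.W × H.L) Prod.fst (fun g => g.2) P (mk '' Q) :=
    { nn := fun g => (hP g).2.2
      su := fun g => let ⟨K, h1, h2, h3⟩ := (hP g).2.1; ⟨K, h1, h2.trans (H.V_sub _), h3⟩
      sum := fun z hz => (hout z hz).1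
      reg := fun g q hq hm h0 => by
        obtain ⟨K, -, h2, h3⟩ := (hP g).2.1
        obtain ⟨q', hq', e'⟩ := h3 _ h0
        obtain rfl : q' = q :=
          (phi g.1).injOn (mem_phi_source.2 (H.V_sub _ (h2 hq'.1))) hq e'
        have h4 := (hout _ hm).2.1 g (lt_of_le_of_ne ((hP g).2.2 _) (Ne.symm h0))
        rw [show H.dd L g _ = _ from H.dd_phi L g (h2 hq'.1) q'.2] at h4
        exact h4.trans (le_max_left _ _)
      sub := fun z ⟨q, hq, e'⟩ => by
        obtain ⟨g, rfl⟩ := mk_eq.1 e'.symm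
        exact R.Z_inv g q (hQ2 hq) }
  refine last_step hB (Fintype.equivFinOfCardEq R.card) M' hb' ht' ⟨hsm' ho.sm, ho.cs⟩ h01
    isOpen_interior hs (fun g => hsm' (hP g).1) hG.nn (fun v c => hsm' (hf v c))
    (a := aa R (G := R.Y.W × H.L) Prod.fst (fun g => g.2) P) hl hs' hc hC0
    (fun z hz => hG.loc (mem_interior_iff_mem_nhds.1 hz)) (fun p hp => ?_)
    (fun p hp => (hg _ (ho.sm.pow 2) p).trans (hs1 p (interior_subset hp))) (fun v p hp => ?_)
    (fun p hp => ?_) fun O' hO' h2 h3 f hf he => ?_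
  · obtain ⟨h2, -, j, I, hj, hI, -, hE'⟩ := hout p (interior_subset hp)
    exact ⟨h2, j, I, hj, hI, hE'⟩
  · refine (Finset.sum_le_sum fun c _ =>
      (hg _ (hf v c) p).trans (hs2 v c p (interior_subset hp))).trans ?_
    rw [Finset.sum_const, Finset.card_univ, nsmul_eq_mul, mul_div_assoc', div_le_iff₀ (by positivity)]
    nlinarith
  · by_cases h2 : p ∈ mk '' R.Q
    · exact Or.inl (h1.filter_mono (nhds_le_nhdsSet h2))
    · exact Or.inr (hG.big (interior_subset hp) h2)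
  · exact hG.ess hQ (fun z hz => by rw [h1.self_of_nhdsSet z hz]; exact one_ne_zero) hO' h2
      (h3.trans interior_subset) hf he

end Crest.Agent.N222.T

end
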