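import Crest.Agent.N222.T.Defs
import Crest.Agent.N222.T.Ess
import Crest.Agent.N222.T.Bridge
import Crest.Agent.N222.D.PertG
import Crest.Prelude.Def_RationalHomology

/-!
# Row 222, top level (helper55): the two statements from `NoPosImm` and part C
-/

set_option autoImplicit false
set_option linter.unusedSectionVars false

open Set Filter Topology Function
open scoped ContDiff Manifold InnerProductSpace
open Crest.GeometryTopology Crest.GeometryTopology.CoordMetric Crest.GeometryTopology.PointedLimit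
open Crest.Agent.R202.Tens Crest.Agent.R247 Crest.Agent.R273.RMan_798 Crest.Agent.N222.D
open Submanifold

noncomputable section

namespace Crest.Agent.N222.T

variable {n N : ℕ} {X : Type} [TopologicalSpace X]

/-- an atlas whose metric is induced by `x` -/
def immOf (R : RAtl n X) (x : X → EE N)
    (h1 : ∀ i, ContDiffOn ℝ ∞ (x ∘ (R.c i).symm) (R.c i).target)
    (h2 : ∀ i, ∀ y ∈ (R.c i).target, R.G i y = metricMat (x ∘ (R.c i).symm) y) :
    Imm n (Fin N) X where
  x := x
  ch p := R.c (R.idx p)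
  mem p := R.idx_mem p
  isChart p := ⟨h1 _, fun y hy => by
    rw [injective_iff_map_eq_zero]
    intro v hv
    by_contra h0
    have h3 := R.bil_pos _ hy v h0
    rw [R.bil_apply, h2 _ y hy, egr_sum, hv] at h3
    simp at h3⟩

/-- positive states of an induced metric -/
theorem not_pos (h : NoPosImm) [T2Space X] [SecondCountableTopology X] [CompactSpace X]
    [ConnectedSpace X] (R : RAtl n X) (x : X → EE N) (hx : Injective x) (hn : 1 ≤ n)
    (h1 : ∀ i, ContDiffOn ℝ ∞ (x ∘ (R.c i).symm) (R.c i).target)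
    (h2 : ∀ i, ∀ y ∈ (R.c i).target, R.G i y = metricMat (x ∘ (R.c i).symm) y)
    (U : C.Cov X) (c : C.Cls U n) : ¬ Pos n R.M := by
  rintro ⟨κ, _, φ, ψ, hφ, hψ, hE⟩
  have hφ' : ∀ k, (immOf R x h1 h2).Sm (φ k) := fun k p => contDiffOn_ch (hφ k) _
  have hψ' : ∀ k, (immOf R x h1 h2).Sm (ψ k) := fun k p => contDiffOn_ch (hψ k) _
  refine h n (Fin N) X (immOf R x h1 h2) (drift _ φ ψ) hn hx (sm_drift hφ' hψ') tan_drift
    (fun p => ?_) U c
  rw [Eb_chart hφ' hψ']
  refine ((hE p).trans_eq (mE_chartR R (R.idx_mem p) φ hψ)).trans_eq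
    (Pt.cE_congr ?_ (fun _ => EventuallyEq.rfl) fun _ => EventuallyEq.rfl)
  filter_upwards [(R.c (R.idx p)).open_target.mem_nhds (R.mem_target p)] with y hy
  exact h2 _ y hy

section Sub

variable {S : Set (EE N)} {R : RAtl n S}
  (hR : ∀ i, ∃ p f V, IsLocalParam n N S p f V ∧ (R.c i).target = V ∧
    R.G i = metricMat f ∧ ∀ y ∈ V, (((R.c i).symm y : S) : EE N) = f y)
include hR

theorem sub_sm (i : R.ι) : ContDiffOn ℝ ∞ (Subtype.val ∘ (R.c i).symm) (R.c i).target := by
  obtain ⟨p, f, V, h, hV, -, hf⟩ := hR i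
  rw [hV]
  exact h.contDiffOn.congr hf

theorem sub_G (i : R.ι) (y : EE n) (hy : y ∈ (R.c i).target) :
    R.G i y = metricMat (Subtype.val ∘ (R.c i).symm) y := by
  obtain ⟨p, f, V, h, hV, hG, hf⟩ := hR i
  have e : (Subtype.val ∘ (R.c i).symm) =ᶠ[𝓝 y] f := by
    filter_upwards [h.isOpen.mem_nhds (hV ▸ hy)] with z hz using hf z hz
  rw [hG]
  ext a b
  simp only [metricMat, pd, e.fderiv_eq]

end Sub

/-- two more coordinates -/
def cons2 (a b : ℝ) (x : EE N) : EE (N + 2) := WithLp.toLp 2 (Fin.cons a (Fin.cons b x.ofLp))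

theorem contDiffOn_cons2 {a b : EE n → ℝ} {x : EE n → EE N} {V : Set (EE n)}
    (ha : ContDiffOn ℝ ∞ a V) (hb : ContDiffOn ℝ ∞ b V) (hx : ContDiffOn ℝ ∞ x V) :
    ContDiffOn ℝ ∞ (fun y => cons2 (a y) (b y) (x y)) V :=
  contDiffOn_euclidean.2 (Fin.cases ha (Fin.cases hb fun c => contDiffOn_euclidean.1 hx c))

theorem metricMat_cons2 {a b : EE n → ℝ} {x : EE n → EE N} {y : EE n}
    (ha : DifferentiableAt ℝ a y) (hb : DifferentiableAt ℝ b y) (hx : DifferentiableAt ℝ x y)
    (i j : Fin n) : metricMat (fun y => cons2 (a y) (b y) (x y)) y i j =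
      metricMat x y i j + (pderiv i a y * pderiv j a y + pderiv i b y * pderiv j b y) := by
  have hc : ∀ {m : ℕ} {f : EE n → EE m}, DifferentiableAt ℝ f y → ∀ v c,
      fderiv ℝ f y v c = fderiv ℝ (fun z => f z c) y v := fun {m f} hf v c =>
    (congrArg (fun L : EE n →L[ℝ] ℝ => L v)
      ((EuclideanSpace.proj c : EE m →L[ℝ] ℝ).hasFDerivAt.comp y hf.hasFDerivAt).fderiv).symm
  have hd : DifferentiableAt ℝ (fun y => cons2 (a y) (b y) (x y)) y :=
    differentiableAt_euclidean.2 (Fin.cases ha (Fin.cases hb fun c =>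
      differentiableAt_euclidean.1 hx c))
  simp only [metricMat, pd, Matrix.of_apply, PiLp.inner_apply, RCLike.inner_apply, conj_trivial,
    hc hd, hc hx, Fin.sum_univ_succ]
  simp only [cons2, Fin.cons_zero, Fin.cons_succ, pderiv, stdVec]
  ring

theorem s0343 (h0 : NoPosImm) (h1 : C.CovStmt) (h2 : C.AsphStmt) (h3 : C.CoreStmt)
    (n N : ℕ) (S : Set (EuclideanSpace ℝ (Fin N))) (hS : IsSubmanifold n N S)
    (hcpt : IsCompact S) (hconn : IsConnected S)
    (hasph : ∀ k : ℕ, 2 ≤ k → ∀ x : S, Subsingleton (HomotopyGroup (Fin k) S x))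
    (hscal : ∀ p ∈ S, ∀ (f : EuclideanSpace ℝ (Fin n) → EuclideanSpace ℝ (Fin N))
      (V : Set (EuclideanSpace ℝ (Fin n))), IsLocalParam n N S p f V → 0 ≤ scalar f 0) :
    ∀ p ∈ S, ∀ (f : EuclideanSpace ℝ (Fin n) → EuclideanSpace ℝ (Fin N))
      (V : Set (EuclideanSpace ℝ (Fin n))), IsLocalParam n N S p f V →
      ∀ i j k l : Fin n, riem f 0 i j k l = 0 := by
  have := isCompact_iff_compactSpace.1 hcpt
  have := isConnected_iff_connectedSpace.1 hconn
  obtain ⟨R, hR, hR'⟩ := sub n N S hS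
  intro p _ f V h i j k l
  have hn : 1 ≤ n := i.pos
  have hF : Flat n R.M := by
    by_cases hric : HasRicciLowerBound n R.M 0
    · obtain ⟨C, hC⟩ := ess h1 h2 h3 n S R hasph
      exact flat_of_ric R C hric hC
    exfalso
    obtain ⟨u₁, u₂, e₁, e₂, s, hs, hP⟩ := pertG R (fun q => by
      obtain ⟨p, hp, f, V, h, e⟩ := mScal_sub R hR q
      rw [e]; exact hscal p hp f V h) hric
    have : CompactSpace R.M := inferInstanceAs (CompactSpace S)
    obtain ⟨U⟩ := h1 n R.M
    obtain ⟨c⟩ := h2 n R.M U hn hasph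
    refine not_pos h0 (Pt.pertB e₁ e₂ hs) (fun q => cons2 (√s * u₁ q) (√s * u₂ q) q.1)
      (fun q q' e => Subtype.ext ?_) hn (fun i => contDiffOn_cons2
        (contDiffOn_const.mul (contDiffOn_ch e₁ i)) (contDiffOn_const.mul (contDiffOn_ch e₂ i))
        (sub_sm hR i)) (fun i y hy => ?_) U c hP
    · ext c
      exact congrArg (fun z : EE (N + 2) => z c.succ.succ) e
    · have hn := (R.c i).open_target.mem_nhds hy
      have d₁ := ((contDiffOn_ch e₁ i).contDiffAt hn).differentiableAt (by simp)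
      have d₂ := ((contDiffOn_ch e₂ i).contDiffAt hn).differentiableAt (by simp)
      ext a b
      refine Eq.trans ?_ (metricMat_cons2 (d₁.const_mul √s) (d₂.const_mul √s)
        (((sub_sm hR i).contDiffAt hn).differentiableAt (by simp)) a b).symm
      rw [← sub_G hR i y hy]
      simp only [pderiv, fderiv_const_mul d₁, fderiv_const_mul d₂, _root_.smul_apply, smul_eq_mul]
      change R.G i y a b + s * (1 * _ * (1 * _) + 1 * _ * (1 * _)) = _
      have := Real.mul_self_sqrt hs
      simp only [pderiv]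
      linear_combination (-(fderiv ℝ (fun z => u₁ ((R.c i).symm z)) y (EuclideanSpace.single a 1) *
        fderiv ℝ (fun z => u₁ ((R.c i).symm z)) y (EuclideanSpace.single b 1)) -
        fderiv ℝ (fun z => u₂ ((R.c i).symm z)) y (EuclideanSpace.single a 1) *
        fderiv ℝ (fun z => u₂ ((R.c i).symm z)) y (EuclideanSpace.single b 1)) * this
  obtain ⟨a, ha, hG⟩ := hR' p f V h
  rw [((egr n N f V h.isOpen h.contDiffOn h.injective_fderiv).2 _ h.zero_mem).1, ← hG,
    hF.chart R a (ha ▸ h.zero_mem)]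
  simp

theorem s0344 (h0 : NoPosImm) (h1 : C.CovStmt) (h2 : C.SingStmt)
    (n N : ℕ) (hn : 2 ≤ n) (S : Set (EuclideanSpace ℝ (Fin N))) (hS : IsSubmanifold n N S)
    (hcpt : IsCompact S) (hconn : IsConnected S)
    (hscal : ∀ p ∈ S, ∀ (f : EuclideanSpace ℝ (Fin n) → EuclideanSpace ℝ (Fin N))
      (V : Set (EuclideanSpace ℝ (Fin n))), IsLocalParam n N S p f V → 0 < scalar f 0)
    (X : Type) [TopologicalSpace X] (hX : Crest.Topology.HasContractibleCover X)
    (c : C(S, X)) :
    (((AlgebraicTopology.singularHomologyFunctor (ModuleCat.{0} ℚ) n).obj (ModuleCat.of ℚ ℚ)).map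
        (TopCat.ofHom c) :
      Crest.Topology.RationalHomology.rationalHomology S n
        ⟶ Crest.Topology.RationalHomology.rationalHomology X n) = 0 := by
  have := isCompact_iff_compactSpace.1 hcpt
  have := isConnected_iff_connectedSpace.1 hconn
  obtain ⟨R, hR, -⟩ := sub n N S hS
  by_contra hc
  have : CompactSpace R.M := inferInstanceAs (CompactSpace S)
  obtain ⟨U⟩ := h1 n R.M
  obtain ⟨a⟩ := h2 n R.M U X hX c (by omega) hc
  refine not_pos h0 R Subtype.val Subtype.val_injective (by omega) (sub_sm hR) (sub_G hR) U a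
    ⟨Empty, inferInstance, fun _ _ => 0, fun _ _ => 0, fun k => k.elim, fun k => k.elim, fun q => ?_⟩
  obtain ⟨p, hp, f, V, h, e⟩ := mScal_sub R hR q
  simpa [mE, e] using hscal p hp f V h

end Crest.Agent.N222.T
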