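import Crest.Agent.N222.T.FinB
import Crest.Agent.N222.T.Main
import Crest.Agent.N222.T.Glue
import Crest.Agent.N222.A.All
import Crest.Agent.N222.C.Core
import Crest.Agent.N222.C.UCov
import Crest.Agent.N222.C.Sing
import Crest.Agent.N222.As.Main

/-! # Row 222: the final assembly -/

set_option autoImplicit false

namespace Crest.Agent.N222.T

theorem noPos : NoPosImm := noPosImm A.af_all C.core bStmt

end Crest.Agent.N222.T
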