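import Crest.Agent.N222.A.Fib
import Crest.Agent.N222.F.Bump

/-!
# Row 222, glue (helper55): group-free estimates
(statements by helper55, proofs by helper64)
-/

set_option autoImplicit false
set_option linter.dupNamespace false
set_option linter.unusedSectionVars false
open Set Filter Topology Function
open scoped ContDiff

noncomputable section

namespace Crest.Agent.N222

namespace A.Fib

variable {n : ℕ} {ι κ : Type} [Fintype ι] [Fintype κ] [DecidableEq ι] [DecidableEq κ] {T Z : Type}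
  [TopologicalSpace T] [TopologicalSpace Z] (F : A.Fib n ι κ T Z)

theorem G0_nonneg (s : ℝ) (f : Z → ℝ) (p : Z) : 0 ≤ F.G0 s f f p := by
  exact add_nonneg (Finset.sum_nonneg fun _ _ => mul_self_nonneg _)
    (mul_nonneg (sq_nonneg _) (Finset.sum_nonneg fun _ _ => mul_self_nonneg _))

theorem G0_congr (s : ℝ) {f g : Z → ℝ} {p : Z} (h : f =ᶠ[𝓝 p] g) :
    F.G0 s f f p = F.G0 s g g p := by
  simp only [G0, Imm.D_congr h]

theorem G0_const (s c : ℝ) (p : Z) : F.G0 s (fun _ => c) (fun _ => c) p = 0 := by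
  simp [G0, Imm.D_const]

theorem G0_sq (s : ℝ) {f : Z → ℝ} (hf : F.M.Sm f) (p : Z) :
    F.G0 s (fun z => f z ^ 2) (fun z => f z ^ 2) p = 4 * F.G0 s f f p * f p ^ 2 := by
  have h : ∀ c, F.M.pre.D c (fun z => f z ^ 2) p = 2 * f p * F.M.pre.D c f p := fun c => by
    simpa using Imm.D_comp (hf.diffAt p) (hasDerivAt_pow 2 (f p)) c
  have e : ∀ x : ℝ, 2 * f p * x * (2 * f p * x) = 4 * f p ^ 2 * (x * x) := fun x => by ring
  simp only [G0, h, e, ← Finset.mul_sum]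
  ring

/-- at scale `0` only the fibre derivatives count -/
theorem G0_zero {w : F.W} {q : (κ → ℝ) × T} (hq : q ∈ (F.φ w).source)
    {f : Z → ℝ} (hf : F.M.Sm f) {c : ℝ} {h : T → ℝ}
    (hh : F.MT.Sm h) (e : ∀ x, f (F.φ w (q.1, x)) = c * h x) :
    F.G0 0 f f (F.φ w q) = c ^ 2 * F.MT.pre.gam h h q.2 := by
  have e' : (fun x => f (F.φ w (q.1, x))) = fun x => c * h x := funext e
  simp only [G0, F.D_inl hq hf, e', Imm.D_const_mul c (hh.diffAt _), Imm.gam_apply, Finset.mul_sum]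
  simp only [ne_eq, OfNat.ofNat_ne_zero, not_false_eq_true, zero_pow, zero_mul,
    Finset.sum_const_zero, add_zero]
  exact Finset.sum_congr rfl fun a _ => by ring

theorem G0_ev {f : Z → ℝ} (hf : F.M.Sm f) {ε : ℝ} (hε : 0 < ε) :
    ∀ᶠ s in 𝓝[≠] (0 : ℝ), ∀ p ∈ F.Om, F.G0 s f f p ≤ F.G0 0 f f p + ε := by
  have hc : Continuous fun p => ∑ j, F.M.pre.D (Sum.inr j) f p * F.M.pre.D (Sum.inr j) f p :=
    continuous_finsetSum _ fun j _ => (hf.D _).continuous.mul (hf.D _).continuous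
  obtain ⟨C, hC⟩ := F.Om_cpt.exists_bound_of_continuousOn hc.continuousOn
  have h1 : Tendsto (fun s : ℝ => s ^ 2 * C) (𝓝 0) (𝓝 0) := by
    have h0 : Continuous fun s : ℝ => s ^ 2 * C := by fun_prop
    simpa using h0.tendsto 0
  filter_upwards [mem_nhdsWithin_of_mem_nhds (h1.eventually (gt_mem_nhds hε))] with s hs p hp
  have h2 := mul_le_mul_of_nonneg_left ((le_abs_self _).trans (hC p hp)) (sq_nonneg s)
  simp only [G0]
  nlinarith

theorem G0_bdd {f : Z → ℝ} (hf : F.M.Sm f) : ∃ C : ℝ, 0 ≤ C ∧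
    ∀ᶠ s in 𝓝[≠] (0 : ℝ), ∀ p ∈ F.Om, F.G0 s f f p ≤ C ^ 2 := by
  have hc : Continuous (F.G0 0 f f) :=
    (continuous_finsetSum _ fun j _ => (hf.D _).continuous.mul (hf.D _).continuous).add
      (continuous_const.mul
        (continuous_finsetSum _ fun j _ => (hf.D _).continuous.mul (hf.D _).continuous))
  obtain ⟨C, hC⟩ := F.Om_cpt.exists_bound_of_continuousOn hc.continuousOn
  refine ⟨|C| + 1, by positivity, (F.G0_ev hf one_pos).mono fun s hs p hp => ?_⟩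
  have h1 := (le_abs_self _).trans (hC p hp)
  nlinarith [hs p hp, le_abs_self C, abs_nonneg C]

end A.Fib

namespace T

variable {d : ℕ} {ι X : Type} [Fintype ι] [DecidableEq ι] [TopologicalSpace X] (M : Imm d ι X)

theorem cost_le [MeasurableSpace X] (om a : X → ℝ) (p : X) : M.cost om a p ≤
    2 * (om p ^ 2 * √(M.pre.gam a a p) +
      |a p| * √(M.pre.gam (fun q => om q ^ 2) (fun q => om q ^ 2) p)) := by
  have e1 : ∀ v : E ι, √(∑ c, v c ^ 2) = ‖v‖ := fun v => by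
    simp [EuclideanSpace.norm_eq]
  have e2 := e1 (om p ^ 2 • M.grad a p - a p • M.grad (fun p => om p ^ 2) p)
  have e3 := norm_sub_le (om p ^ 2 • M.grad a p) (a p • M.grad (fun p => om p ^ 2) p)
  rw [← e2, norm_smul, norm_smul, Real.norm_eq_abs, Real.norm_eq_abs,
    abs_of_nonneg (sq_nonneg _)] at e3
  rw [Imm.gam_self_eq, Imm.gam_self_eq, Real.sqrt_sq (norm_nonneg _), Real.sqrt_sq (norm_nonneg _)]
  exact mul_le_mul_of_nonneg_left e3 zero_le_two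

/-- the gradient of `m * (coloured sums of a probability vector) + h` -/
theorem grad_le {G τ : Type} [Fintype G] [Fintype τ] {P : G → X → ℝ} (hP : ∀ g, M.Sm (P g))
    {h : τ → X → ℝ} (hh : ∀ c, M.Sm (h c)) {A : τ → Finset G}
    (hA : ∀ c c' g, g ∈ A c → g ∈ A c' → c = c') {p : X} (h0 : ∀ g, 0 ≤ P g p)
    (h1 : ∑ g, P g p = 1) {j : G → ℝ}
    (hj : ∀ g, 0 ≤ j g ∧ M.pre.gam (P g) (P g) p ≤ j g * P g p) (m : ℝ) {a : τ → X → ℝ}
    (ha : ∀ c, a c =ᶠ[𝓝 p] fun q => m * ∑ g ∈ A c, P g q + h c q) :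
    ∑ c, M.pre.gam (a c) (a c) p ≤ 2 * m ^ 2 * ∑ g, j g + 2 * ∑ c, M.pre.gam (h c) (h c) p := by
  classical
  have g1 : ∀ c, M.grad (a c) p = m • ∑ g ∈ A c, M.grad (P g) p + M.grad (h c) p := fun c => by
    have s1 : M.Sm fun q => ∑ g ∈ A c, P g q := Imm.sm_sum _ fun g _ => hP g
    ext b
    change M.pre.D b (a c) p = _
    rw [Imm.D_congr (ha c), Imm.D_add (((Imm.sm_const m).mul s1).diffAt p) ((hh c).diffAt p),
      Imm.D_const_mul m (s1.diffAt p), Imm.D_sum _ fun g _ => (hP g).diffAt p]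
    simp [Imm.grad]
  have g2 : ∀ c, ‖∑ g ∈ A c, M.grad (P g) p‖ ^ 2 ≤ ∑ g ∈ A c, j g := fun c => by
    have a1 := Finset.sum_sq_le_sum_mul_sum_of_sq_le_mul (A c) (r := fun g => ‖M.grad (P g) p‖)
      (f := j) (g := fun g => P g p) (fun g _ => (hj g).1) (fun g _ => h0 g)
      fun g _ => by rw [← Imm.gam_self_eq]; exact (hj g).2
    have a2 : ∑ g ∈ A c, P g p ≤ 1 :=
      h1 ▸ Finset.sum_le_sum_of_subset_of_nonneg (Finset.subset_univ _) fun g _ _ => h0 g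
    exact ((pow_le_pow_left₀ (norm_nonneg _) (norm_sum_le _ _) 2).trans a1).trans
      (mul_le_of_le_one_right (Finset.sum_nonneg fun g _ => (hj g).1) a2)
  have g3 : ∑ c, ∑ g ∈ A c, j g ≤ ∑ g, j g := by
    rw [← Finset.sum_biUnion fun c _ c' _ hne =>
      Finset.disjoint_left.2 fun g hg hg' => hne (hA c c' g hg hg')]
    exact Finset.sum_le_sum_of_subset_of_nonneg (Finset.subset_univ _) fun g _ _ => (hj g).1
  have g4 : ∀ c, M.pre.gam (a c) (a c) p ≤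
      2 * m ^ 2 * ∑ g ∈ A c, j g + 2 * M.pre.gam (h c) (h c) p := fun c => by
    rw [Imm.gam_self_eq, Imm.gam_self_eq, g1]
    have b1 := pow_le_pow_left₀ (norm_nonneg _)
      (norm_add_le (m • ∑ g ∈ A c, M.grad (P g) p) (M.grad (h c) p)) 2
    have b2 : ‖m • ∑ g ∈ A c, M.grad (P g) p‖ ^ 2 ≤ m ^ 2 * ∑ g ∈ A c, j g := by
      rw [norm_smul, mul_pow, Real.norm_eq_abs, sq_abs]
      exact mul_le_mul_of_nonneg_left (g2 c) (sq_nonneg m)
    nlinarith [sq_nonneg (‖m • ∑ g ∈ A c, M.grad (P g) p‖ - ‖M.grad (h c) p‖)]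
  refine (Finset.sum_le_sum fun c _ => g4 c).trans ?_
  rw [Finset.sum_add_distrib, ← Finset.mul_sum, ← Finset.mul_sum]
  have := mul_le_mul_of_nonneg_left g3 (by positivity : 0 ≤ 2 * m ^ 2)
  linarith

/-- the constants -/
theorem exists_const (s0 C m : ℝ) (D : ℕ) (hs : 0 < s0) (hC : 0 ≤ C) :
    ∃ lam Λ e s' : ℝ, 0 < lam ∧ 0 ≤ Λ ∧ 0 < e ∧ 0 < s' ∧ ∀ (ψ gψ I V : ℝ) (a r : Fin D → ℝ),
      0 ≤ ψ → ψ ≤ 1 → 0 ≤ gψ → gψ ≤ C → 0 ≤ I → s0 / 4 + Λ * I ≤ V → (∀ c, 0 ≤ r c) →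
      ∑ c, r c ^ 2 ≤ 2 * m ^ 2 * I + 2 * e → (ψ = 1 ∧ gψ = 0) ∨ 1 ≤ ∑ c, a c ^ 2 →
      s' + ∑ c, 2 * (ψ * (lam * r c) + |lam * a c| * gψ) ≤ V * ψ ^ 2 + ∑ c, (lam * a c) ^ 2 := by
  obtain ⟨θ, hθ, hθs⟩ : ∃ θ : ℝ, 0 < θ ∧ s0 / 4 = 4 * θ := ⟨s0 / 16, by positivity, by ring⟩
  obtain ⟨lam, hlam⟩ : ∃ lam : ℝ, lam = 1 + 3 * θ + C * (D + 1) := ⟨_, rfl⟩
  have hCD : 0 ≤ C * (D + 1) := by positivity
  have hl1 : 1 ≤ lam := by linarith
  refine ⟨lam, 2 * lam ^ 2 * D * m ^ 2 / θ, θ ^ 2 / (2 * lam ^ 2 * D + 1), θ, by linarith,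
    by positivity, by positivity, hθ, fun ψ gψ I V a r h0 h1 g0 g1 hI hV hr hr2 hc => ?_⟩
  set Λ := 2 * lam ^ 2 * D * m ^ 2 / θ with hΛ
  have hΛI : 0 ≤ Λ * I := by positivity
  have k1 : (∑ c, r c) ^ 2 ≤ D * ∑ c, r c ^ 2 := by
    simpa using sq_sum_le_card_mul_sum_sq (s := Finset.univ) (f := r)
  have k2 : 2 * lam ^ 2 * D * (θ ^ 2 / (2 * lam ^ 2 * D + 1)) ≤ θ ^ 2 := by
    rw [← mul_div_assoc, div_le_iff₀ (by positivity)]
    nlinarith [sq_nonneg θ]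
  have k3 : lam ^ 2 * (∑ c, r c) ^ 2 ≤ θ * (Λ * I) + θ ^ 2 := by
    have e : θ * (Λ * I) = lam ^ 2 * (D * (2 * m ^ 2 * I)) := by
      rw [hΛ]; field_simp
    have := mul_le_mul_of_nonneg_left (k1.trans (mul_le_mul_of_nonneg_left hr2 D.cast_nonneg))
      (sq_nonneg lam)
    rw [e]; linarith
  have k4 : 2 * (ψ * (lam * ∑ c, r c)) ≤ 2 * θ + ψ ^ 2 * (Λ * I) := by
    refine le_of_mul_le_mul_left ?_ hθ
    have b1 := mul_le_mul_of_nonneg_left k3 (sq_nonneg ψ)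
    have b2 : ψ ^ 2 * θ ^ 2 ≤ θ ^ 2 :=
      mul_le_of_le_one_left (sq_nonneg θ) (pow_le_one₀ h0 h1)
    nlinarith [sq_nonneg (θ - ψ * (lam * ∑ c, r c))]
  have e1 : ∑ c, 2 * (ψ * (lam * r c) + |lam * a c| * gψ) =
      2 * (ψ * (lam * ∑ c, r c)) + lam * gψ * ∑ c, 2 * |a c| := by
    simp only [Finset.mul_sum, ← Finset.sum_add_distrib, abs_mul, abs_of_nonneg (by linarith : 0 ≤ lam)]
    exact Finset.sum_congr rfl fun c _ => by ring
  have e2 : ∑ c, (lam * a c) ^ 2 = lam ^ 2 * ∑ c, a c ^ 2 := by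
    simp only [mul_pow, Finset.mul_sum]
  have a0 : 0 ≤ ∑ c, a c ^ 2 := Finset.sum_nonneg fun _ _ => sq_nonneg _
  rw [e1, e2]
  rcases hc with ⟨rfl, rfl⟩ | hc
  · nlinarith [mul_nonneg (sq_nonneg lam) a0]
  · have c1 : ∑ c, 2 * |a c| ≤ D + ∑ c, a c ^ 2 := by
      have : ∑ c, 2 * |a c| ≤ ∑ c, (1 + a c ^ 2) := Finset.sum_le_sum fun c _ => by
        nlinarith [sq_nonneg (|a c| - 1), sq_abs (a c)]
      simpa [Finset.sum_add_distrib] using this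
    have c2 : ∑ c, 2 * |a c| ≤ (D + 1) * ∑ c, a c ^ 2 := by
      nlinarith [mul_le_mul_of_nonneg_left hc (D.cast_nonneg (α := ℝ))]
    have c3 : gψ * ∑ c, 2 * |a c| ≤ C * ((D + 1) * ∑ c, a c ^ 2) :=
      mul_le_mul g1 c2 (Finset.sum_nonneg fun _ _ => by positivity) hC
    have c4 := mul_le_mul_of_nonneg_left c3 (by linarith : 0 ≤ lam)
    have c5 : ψ ^ 2 * (Λ * I) ≤ ψ ^ 2 * V := mul_le_mul_of_nonneg_left (by linarith) (sq_nonneg ψ)
    have c6 : lam ^ 2 * ∑ c, a c ^ 2 =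
        lam * (C * ((D + 1) * ∑ c, a c ^ 2)) + (1 + 3 * θ) * (lam * ∑ c, a c ^ 2) := by
      rw [sq lam]; nth_rewrite 2 [hlam]; ring
    have c7 : 1 ≤ lam * ∑ c, a c ^ 2 := one_le_mul_of_one_le_of_one_le hl1 hc
    nlinarith

end T

end Crest.Agent.N222

end
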