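import Crest.Agent.N222.T.Cov

/-!
# Row 222, glue (helper55): the quotient `(T × Y) / Γ` and its trivialisations
(SKELETON: fill in place, statements frozen; add lemmas freely)
-/

set_option autoImplicit false
set_option linter.dupNamespace false
open Set Filter Topology Function

noncomputable section

namespace Crest.Agent.N222

namespace C.Par

variable {Γ κ : Type} [Group Γ] [Fintype κ] (Y : C.Par Γ κ)

instance ccs : ContinuousConstSMul Γ Y.Y := Y.cont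

instance t2' : T2Space Y.Y := Y.t2

/-- every point has a translate in a chart -/
theorem exists_chart (η : Y.Y) : ∃ w, ∃ g : Γ, g • η ∈ (Y.ch w).source ∧ Y.t w (Y.π η) ≠ 0 := by
  obtain ⟨w, -, hw⟩ := Finset.exists_ne_zero_of_sum_ne_zero ((Y.t_sum η).trans_ne one_ne_zero)
  obtain ⟨⟨g, hg⟩, h⟩ := Set.indicator_apply_ne_zero.1 hw
  exact ⟨w, g, hg, h⟩

theorem uniq {w : Y.W} {g g' : Γ} {η : Y.Y} (h : g • η ∈ (Y.ch w).source)
    (h' : g' • η ∈ (Y.ch w).source) : g = g' := by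
  have := Y.disj w (g' * g⁻¹) (g • η) h (by rwa [mul_smul, inv_smul_smul])
  exact (mul_inv_eq_one.1 this).symm

theorem continuous_π : Continuous Y.π := by
  refine continuous_iff_continuousAt.2 fun η => ?_
  obtain ⟨w, g, hg, -⟩ := Y.exists_chart η
  have e : Y.π = fun ζ => Y.ch w (g • ζ) := funext fun ζ => by rw [Y.ch_eq, Y.π_smul]
  rw [e]
  exact ContinuousAt.comp (f := fun ζ => g • ζ) ((Y.ch w).continuousAt hg)
    (continuous_const_smul g).continuousAt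

theorem π_symm (w : Y.W) {ξ : κ → ℝ} (hξ : ξ ∈ (Y.ch w).target) : Y.π ((Y.ch w).symm ξ) = ξ := by
  rw [← Y.ch_eq w, (Y.ch w).right_inv hξ]

theorem π_mem {w : Y.W} {g : Γ} {η : Y.Y} (h : g • η ∈ (Y.ch w).source) :
    Y.π η ∈ (Y.ch w).target := by
  rw [← Y.π_smul g, ← Y.ch_eq w]; exact (Y.ch w).map_source h

theorem symm_π {w : Y.W} {g : Γ} {η : Y.Y} (h : g • η ∈ (Y.ch w).source) :
    (Y.ch w).symm (Y.π η) = g • η := by
  rw [← Y.π_smul g, ← Y.ch_eq w, (Y.ch w).left_inv h]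

instance lc : LocallyCompactSpace Y.Y := by
  refine ⟨fun η V hV => ?_⟩
  obtain ⟨w, g, hg, -⟩ := Y.exists_chart η
  let e := (Homeomorph.smul g).transOpenPartialHomeomorph (Y.ch w)
  have hx : η ∈ e.source := hg
  have h1 : e.target ∩ e.symm ⁻¹' V ∈ 𝓝 (e η) :=
    inter_mem (e.open_target.mem_nhds (e.map_source hx))
      ((e.continuousAt_symm (e.map_source hx)).preimage_mem_nhds (by rwa [e.left_inv hx]))
  obtain ⟨K, hK, hKV, hKc⟩ := LocallyCompactSpace.local_compact_nhds _ _ h1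
  refine ⟨e.symm '' K, ?_, by rintro _ ⟨y, hy, rfl⟩; exact (hKV hy).2,
    hKc.image_of_continuousOn (e.continuousOn_symm.mono fun y hy => (hKV hy).1)⟩
  filter_upwards [e.open_source.mem_nhds hx, (e.continuousAt hx).preimage_mem_nhds hK] with y hy hy'
  exact ⟨e y, hy', e.left_inv hy⟩

/-- the saturation of a compact set is closed -/
theorem isClosed_sat {K : Set Y.Y} (hK : IsCompact K) : IsClosed (C.sat Γ K) := by
  refine isOpen_compl_iff.1 (isOpen_iff_mem_nhds.2 fun η hη => ?_)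
  obtain ⟨N, hN, hN'⟩ := exists_compact_mem_nhds η
  have h1 : IsClosed (⋃ g ∈ {g : Γ | ∃ η ∈ N, g • η ∈ K}, (g • ·) ⁻¹' K) :=
    (Y.prop N K hN hK).isClosed_biUnion fun g _ => hK.isClosed.preimage (continuous_const_smul g)
  filter_upwards [hN', h1.isOpen_compl.mem_nhds fun h => by
    obtain ⟨g, -, hg⟩ := mem_iUnion₂.1 h
    exact hη ⟨g, hg⟩] with ζ h2 h3 ⟨g, hg⟩
  exact h3 (mem_iUnion₂.2 ⟨g, ⟨ζ, h2, hg⟩, hg⟩)

end C.Par

namespace T

variable {S : Type} [TopologicalSpace S] (U : C.Cov S) {κ : Type} [Fintype κ] (Y : C.Par U.Γ κ)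

/-- the quotient -/
def ZZ : Type := MulAction.orbitRel.Quotient U.Γ (U.T × Y.Y)

instance : TopologicalSpace (ZZ U Y) :=
  inferInstanceAs (TopologicalSpace (Quotient (MulAction.orbitRel U.Γ (U.T × Y.Y))))

variable {U Y}

/-- the quotient map -/
def mk (z : U.T × Y.Y) : ZZ U Y := Quotient.mk (MulAction.orbitRel U.Γ (U.T × Y.Y)) z

theorem mk_eq {z z' : U.T × Y.Y} : mk z = mk z' ↔ ∃ g : U.Γ, g • z' = z :=
  Quotient.eq

theorem mk_smul (g : U.Γ) (z : U.T × Y.Y) : mk (g • z) = mk z := mk_eq.2 ⟨g, rfl⟩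

theorem mk_surj : Surjective (mk : U.T × Y.Y → ZZ U Y) := Quotient.mk_surjective

theorem continuous_mk : Continuous (mk : U.T × Y.Y → ZZ U Y) := continuous_quotient_mk'

theorem isOpenMap_mk : IsOpenMap (mk : U.T × Y.Y → ZZ U Y) := isOpenMap_quotient_mk'_mul

theorem isQuotientMap_mk : IsQuotientMap (mk : U.T × Y.Y → ZZ U Y) :=
  isOpenMap_mk.isQuotientMap continuous_mk mk_surj

instance t2Z [T2Space S] [LocallyCompactSpace S] : T2Space (ZZ U Y) := by
  have : ProperlyDiscontinuousSMul U.Γ (U.T × Y.Y) := ⟨fun {K L} hK hL =>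
    (U.fin (hK.image continuous_fst) (hL.image continuous_fst)).subset (by
      rintro g ⟨_, ⟨z, hz, rfl⟩, h⟩
      exact ⟨z.1, mem_image_of_mem _ hz, mem_image_of_mem Prod.fst h⟩)⟩
  exact t2Space_of_properlyDiscontinuousSMul_of_t2Space

theorem scZ [SecondCountableTopology S] [SecondCountableTopology Y.Y] :
    SecondCountableTopology (ZZ U Y) :=
  isQuotientMap_mk.secondCountableTopology isOpenMap_mk

/-- descent of an invariant function -/
def desc {α : Type} (f : U.T × Y.Y → α) (hf : ∀ (g : U.Γ) z, f (g • z) = f z) : ZZ U Y → α :=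
  Quotient.lift f fun a b ⟨g, h⟩ => by rw [← hf g b]; exact congrArg f h.symm

@[simp] theorem desc_mk {α : Type} (f : U.T × Y.Y → α) (hf : ∀ (g : U.Γ) z, f (g • z) = f z)
    (z : U.T × Y.Y) : desc f hf (mk z) = f z := rfl

/-- the projection to `S` -/
def qS : ZZ U Y → S := desc (fun z => U.p z.1) fun g z => U.p_smul g z.1

/-- the parameter -/
def pZ : ZZ U Y → κ → ℝ := desc (fun z => Y.π z.2) fun g z => Y.π_smul g z.2

@[simp] theorem qS_mk (z : U.T × Y.Y) : qS (mk z) = U.p z.1 := rfl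

@[simp] theorem pZ_mk (z : U.T × Y.Y) : pZ (mk z) = Y.π z.2 := rfl

theorem exists_phi (w : Y.W) : ∃ e : OpenPartialHomeomorph ((κ → ℝ) × U.T) (ZZ U Y),
    (∀ q, e q = mk (q.2, (Y.ch w).symm q.1)) ∧ e.source = (Y.ch w).target ×ˢ univ ∧
      e.target = mk '' (univ ×ˢ (Y.ch w).source) := by
  have : Nonempty Y.Y := ⟨(Y.ch w).symm 0⟩
  have hinj : InjOn (mk : U.T × Y.Y → ZZ U Y) (univ ×ˢ (Y.ch w).source) := fun z hz z' hz' h => by
    obtain ⟨g, rfl⟩ := mk_eq.1 h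
    rw [Y.disj w g z'.2 hz'.2 hz.2, one_smul]
  let e1 := OpenPartialHomeomorph.ofContinuousOpen (hinj.toPartialEquiv _ _)
    continuous_mk.continuousOn isOpenMap_mk (isOpen_univ.prod (Y.ch w).open_source)
  let e0 := ((Y.ch w).symm.prod (OpenPartialHomeomorph.refl U.T)).transHomeomorph
    (Homeomorph.prodComm _ _)
  have hs : (e0.trans e1).source = (Y.ch w).target ×ˢ univ :=
    Set.ext fun q => ⟨fun h => h.1, fun h => ⟨h, mem_univ _, (Y.ch w).map_target h.1⟩⟩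
  refine ⟨e0.trans e1, fun q => rfl, hs, ?_⟩
  rw [← (e0.trans e1).image_source_eq_target, hs]
  refine Subset.antisymm ?_ ?_
  · rintro _ ⟨q, hq, rfl⟩
    exact ⟨(q.2, (Y.ch w).symm q.1), ⟨mem_univ _, (Y.ch w).map_target hq.1⟩, rfl⟩
  · rintro _ ⟨z, hz, rfl⟩
    refine ⟨(Y.ch w z.2, z.1), ⟨(Y.ch w).map_source hz.2, mem_univ _⟩, ?_⟩
    change mk (z.1, (Y.ch w).symm (Y.ch w z.2)) = mk z
    rw [(Y.ch w).left_inv hz.2]

/-- the trivialisations -/
def phi (w : Y.W) : OpenPartialHomeomorph ((κ → ℝ) × U.T) (ZZ U Y) := (exists_phi w).choose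

theorem phi_apply (w : Y.W) (q : (κ → ℝ) × U.T) : phi w q = mk (q.2, (Y.ch w).symm q.1) :=
  (exists_phi w).choose_spec.1 q

theorem phi_source (w : Y.W) : (phi (U := U) w).source = (Y.ch w).target ×ˢ univ :=
  (exists_phi w).choose_spec.2.1

theorem phi_target (w : Y.W) : (phi (U := U) w).target = mk '' (univ ×ˢ (Y.ch w).source) :=
  (exists_phi w).choose_spec.2.2

theorem mem_phi_source {w : Y.W} {q : (κ → ℝ) × U.T} :
    q ∈ (phi w).source ↔ q.1 ∈ (Y.ch w).target := by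
  rw [phi_source]; exact ⟨fun h => h.1, fun h => ⟨h, mem_univ _⟩⟩

theorem qS_phi (w : Y.W) (q : (κ → ℝ) × U.T) : qS (phi w q) = U.p q.2 := by rw [phi_apply]; rfl

theorem pZ_phi {w : Y.W} {q : (κ → ℝ) × U.T} (hq : q ∈ (phi w).source) : pZ (phi w q) = q.1 := by
  rw [phi_apply, pZ_mk, Y.π_symm w (mem_phi_source.1 hq)]

theorem phi_symm_fst {w : Y.W} {z : ZZ U Y} (hz : z ∈ (phi w).target) :
    ((phi w).symm z).1 = pZ z := by
  rw [← pZ_phi ((phi w).map_target hz), (phi w).right_inv hz]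

theorem mk_mem_target {w : Y.W} {x : U.T} {η : Y.Y} :
    mk (x, η) ∈ (phi w).target ↔ ∃ g : U.Γ, g • η ∈ (Y.ch w).source := by
  rw [phi_target]
  refine ⟨?_, fun ⟨g, hg⟩ => ⟨g • (x, η), ⟨mem_univ _, hg⟩, mk_smul g _⟩⟩
  rintro ⟨z, hz, h⟩
  obtain ⟨g, rfl⟩ := mk_eq.1 h
  exact ⟨g, hz.2⟩

theorem phi_symm_mk {w : Y.W} {g : U.Γ} {η : Y.Y} (h : g • η ∈ (Y.ch w).source) (x : U.T) :
    (phi w).symm (mk (x, η)) = (Y.π η, g • x) := by
  have e : mk (x, η) = phi w (Y.π η, g • x) := by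
    rw [phi_apply, Y.symm_π h]
    exact (mk_smul g (x, η)).symm
  rw [e, (phi w).left_inv (mem_phi_source.2 (Y.π_mem h))]

theorem phi_cover (z : ZZ U Y) : ∃ w, z ∈ (phi w).target := by
  obtain ⟨⟨x, η⟩, rfl⟩ := mk_surj z
  obtain ⟨w, g, hg, -⟩ := Y.exists_chart η
  exact ⟨w, mk_mem_target.2 ⟨g, hg⟩⟩

theorem phi_closed (w : Y.W) {K : Set (κ → ℝ)} (hK : IsCompact K) (h : K ⊆ (Y.ch w).target) :
    IsClosed (phi (U := U) w '' (K ×ˢ univ)) := by
  rw [← isQuotientMap_mk.isClosed_preimage]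
  convert (Y.isClosed_sat (hK.image_of_continuousOn
    ((Y.ch w).continuousOn_symm.mono h))).preimage (continuous_snd (X := U.T)) using 1
  refine Set.ext fun z => ⟨?_, ?_⟩
  · rintro ⟨q, hq, e⟩
    rw [phi_apply] at e
    obtain ⟨g, hg⟩ := mk_eq.1 e
    exact ⟨g, q.1, hq.1, (congrArg Prod.snd hg).symm⟩
  · rintro ⟨g, ξ, hξ, e⟩
    refine ⟨(ξ, g • z.1), ⟨hξ, mem_univ _⟩, ?_⟩
    rw [phi_apply, e]
    exact mk_smul g z

/-- the transition maps are locally given by one deck transformation -/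
theorem phi_trans {w w' : Y.W} {z : ZZ U Y} (h : z ∈ (phi w).target) (h' : z ∈ (phi w').target) :
    ∃ g : U.Γ, ∀ᶠ z' in 𝓝 z, ((phi w').symm z').2 = g • ((phi w).symm z').2 := by
  obtain ⟨⟨x, η⟩, rfl⟩ := mk_surj z
  obtain ⟨g, hg⟩ := mk_mem_target.1 h
  obtain ⟨g', hg'⟩ := mk_mem_target.1 h'
  have ho : IsOpen {q : U.T × Y.Y | g • q.2 ∈ (Y.ch w).source ∧ g' • q.2 ∈ (Y.ch w').source} :=
    ((Y.ch w).open_source.preimage ((continuous_const_smul g).comp continuous_snd)).inter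
      ((Y.ch w').open_source.preimage ((continuous_const_smul g').comp continuous_snd))
  refine ⟨g' * g⁻¹, mem_of_superset
    (isOpenMap_mk.image_mem_nhds (ho.mem_nhds (show (x, η) ∈ _ from ⟨hg, hg'⟩))) ?_⟩
  rintro _ ⟨⟨y, ζ⟩, hq, rfl⟩
  change ((phi w').symm (mk (y, ζ))).2 = (g' * g⁻¹) • ((phi w).symm (mk (y, ζ))).2
  rw [phi_symm_mk hq.1, phi_symm_mk hq.2, mul_smul, inv_smul_smul]

end T

end Crest.Agent.N222

end
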