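import Crest.Agent.N222.T.Lab
import Crest.Agent.N222.T.Quot
import Crest.Agent.N222.T.G0

/-!
# Row 222, glue (helper55): the fibred setting on `(T × Y) / Γ`
(statements by helper55, proofs by helper64)
-/

set_option autoImplicit false
set_option linter.dupNamespace false
set_option linter.unusedSectionVars false
open Set Filter Topology Function
open scoped ContDiff

noncomputable section

namespace Crest.Agent.N222.T

variable {S ι κ : Type} [TopologicalSpace S] [Fintype ι] [Fintype κ] {n : ℕ} {U : C.Cov S}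
  (M : Imm n ι S) (Y : C.Par U.Γ κ)

theorem comb_phi (w : Y.W) (q : (κ → ℝ) × U.T) (hq : q ∈ (phi w).source) :
    comb (pZ (phi w q), M.x (qS (phi w q))) = comb (q.1, (cN U M).x q.2) := by
  rw [pZ_phi hq, qS_phi]; rfl

/-- the total space as an immersed manifold -/
def zM : Imm (n + Fintype.card κ) (ι ⊕ κ) (ZZ U Y) where
  x z := comb (pZ z, M.x (qS z))
  ch z := (phi (phi_cover z).choose).symm.trans
    (((cN U M).par κ).ch ((phi (phi_cover z).choose).symm z))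
  mem z := ⟨(phi_cover z).choose_spec, ((cN U M).par κ).mem _⟩
  isChart z := (((cN U M).par κ).isChart _).of_eqOn (fun _ h => h.1) fun _ h =>
    comb_phi M Y _ _ h.2

theorem zM_phi (w : Y.W) (q : (κ → ℝ) × U.T) (hq : q ∈ (phi w).source) :
    (zM M Y).x (phi w q) = comb (q.1, (cN U M).x q.2) := comb_phi M Y w q hq

/-- functions of the parameter are smooth -/
theorem sm_pZ {r : (κ → ℝ) → ℝ} (hr : ContDiff ℝ ∞ r) : (zM M Y).Sm fun z => r (pZ z) :=
  ((zM M Y).sm_x.comp (prR (ι := ι) (κ := κ)).contDiff).comp hr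

variable {Y}

theorem push_su {w : Y.W} {f : (κ → ℝ) × U.T → ℝ} {K : Set (κ → ℝ)}
    (hf : ∀ q, f q ≠ 0 → q.1 ∈ K) {z : ZZ U Y} (hz : push (phi w) f z ≠ 0) :
    z ∈ phi w '' (K ×ˢ univ) := by
  by_cases h : z ∈ (phi w).target
  · rw [push, indicator_of_mem h] at hz
    exact ⟨_, ⟨hf _ hz, mem_univ _⟩, (phi w).right_inv h⟩
  · exact absurd (indicator_of_notMem h _) hz

theorem push_ev {w : Y.W} {f : (κ → ℝ) × U.T → ℝ} {K : Set (κ → ℝ)} (hK : IsCompact K)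
    (hs : K ⊆ (Y.ch w).target) (hf : ∀ q, f q ≠ 0 → q.1 ∈ K) {z : ZZ U Y}
    (hz : z ∉ (phi w).target) : push (phi w) f =ᶠ[𝓝 z] 0 := by
  have h1 : z ∉ phi (U := U) w '' (K ×ˢ univ) := by
    rintro ⟨q, hq, rfl⟩
    exact hz ((phi w).map_source (mem_phi_source.2 (hs hq.1)))
  filter_upwards [(phi_closed w hK hs).isOpen_compl.mem_nhds h1] with y hy
  by_contra h
  exact hy (push_su hf h)

/-- extension by zero -/
theorem sm_push {w : Y.W} {f : (κ → ℝ) × U.T → ℝ} (h : ((cN U M).par κ).Sm f) {K : Set (κ → ℝ)}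
    (hK : IsCompact K) (hs : K ⊆ (Y.ch w).target) (hf : ∀ q, f q ≠ 0 → q.1 ∈ K) :
    (zM M Y).Sm (push (phi w) f) := by
  refine Imm.sm_of_charts fun z => ⟨(zM M Y).ch z, (zM M Y).isChart z, (zM M Y).mem z, ?_⟩
  by_cases hz : z ∈ (phi w).target
  · have h2 : Loc (zM M Y) ((cN U M).par κ) (phi w).symm z := loc_of_mem (e := (phi w).symm)
      (fun y hy => by
        conv_rhs => rw [← (phi w).right_inv hy]
        exact (zM_phi M Y w _ ((phi w).map_target hy)).symm) hz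
    refine (h2.contDiffAt h).congr_of_eventuallyEq (symm_eventuallyEq ((zM M Y).mem z) ?_)
    filter_upwards [(phi w).open_target.mem_nhds hz] with y hy
    exact indicator_of_mem hy _
  · exact (contDiffAt_const (c := 0)).congr_of_eventuallyEq
      (symm_eventuallyEq ((zM M Y).mem z) (push_ev hK hs hf hz))

variable (Y) in
/-- compact pieces of the charts and the finite set of labels -/
structure Gen (Q : Set (U.T × Y.Y)) (supp : Set U.T) where
  V : Y.W → Set (κ → ℝ)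
  lam : Y.W → (κ → ℝ) → ℝ
  mu : Y.W → (κ → ℝ) → ℝ
  D : Set U.T
  L : Finset U.Γ
  V_open : ∀ w, IsOpen (V w)
  V_sub : ∀ w, V w ⊆ (Y.ch w).target
  lam_sm : ∀ w, ContDiff ℝ ∞ (lam w)
  lam_cpt : ∀ w, IsCompact (tsupport (lam w))
  lam_sub : ∀ w, tsupport (lam w) ⊆ V w
  lam_one : ∀ w, ∀ z ∈ mk '' Q, z ∈ (phi w).target → Y.t w (pZ z) ≠ 0 → lam w (pZ z) = 1
  mu_sm : ∀ w, ContDiff ℝ ∞ (mu w)
  mu_cpt : ∀ w, IsCompact (tsupport (mu w))
  mu_sub : ∀ w, tsupport (mu w) ⊆ (Y.ch w).target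
  mu_le : ∀ w ξ, mu w ξ ^ 2 ≤ 1
  mu_one : ∀ w, ∀ ξ ∈ V w, mu w ξ = 1
  D_cpt : IsCompact D
  D_loc : ∀ w x, ∀ ξ ∈ V w, phi w (ξ, x) ∈ mk '' Q → x ∈ D
  one_mem : (1 : U.Γ) ∈ L
  L_mem : ∀ x ∈ D, ∀ g : U.Γ, g⁻¹ • x ∈ supp → g ∈ L

open scoped Manifold in
theorem exists_pbump {K O : Set (κ → ℝ)} (hK : IsCompact K) (hO : IsOpen O) (h : K ⊆ O) :
    ∃ f : (κ → ℝ) → ℝ, ContDiff ℝ ∞ f ∧ IsCompact (tsupport f) ∧ tsupport f ⊆ O ∧
      (∀ ξ, f ξ ^ 2 ≤ 1) ∧ ∀ ξ ∈ K, f ξ = 1 := by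
  obtain ⟨L, hL, h1, h2⟩ := exists_compact_between hK hO h
  obtain ⟨f, f0, f1, f2⟩ := exists_contMDiffMap_zero_one_of_isClosed (n := ⊤) 𝓘(ℝ, κ → ℝ)
    isOpen_interior.isClosed_compl hK.isClosed (disjoint_compl_left_iff_subset.2 h1)
  have h3 : tsupport f ⊆ L := closure_minimal
    (fun ξ hξ => interior_subset (by_contra fun h' => hξ (f0 h'))) hL.isClosed
  exact ⟨f, f.contMDiff.contDiff, hL.of_isClosed_subset (isClosed_tsupport _) h3, h3.trans h2,
    fun ξ => pow_le_one₀ (f2 ξ).1 (f2 ξ).2, fun ξ hξ => f1 hξ⟩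

theorem exists_gen [T2Space S] {Q : Set (U.T × Y.Y)} (hQ : IsCompact Q) {supp : Set U.T}
    (hs : IsCompact supp) : Nonempty (Gen Y Q supp) := by
  classical
  have hC : IsCompact (Prod.snd '' Q) := hQ.image continuous_snd
  let K : Y.W → Set (κ → ℝ) := fun w => Y.π '' (Prod.snd '' Q ∩
    {ζ : Y.Y | (∃ g : U.Γ, g • ζ ∈ (Y.ch w).source) ∧ Y.π ζ ∈ tsupport (Y.t w)})
  have hK : ∀ w, IsCompact (K w) := fun w => (hC.inter_right (Y.cls w)).image Y.continuous_π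
  have hKs : ∀ w, K w ⊆ (Y.ch w).target := by
    rintro w _ ⟨ζ, ⟨-, ⟨g, hg⟩, -⟩, rfl⟩
    exact Y.π_mem hg
  choose V V1 V2 V3 V4 using fun w =>
    exists_open_between_and_isCompact_closure (hK w) (Y.ch w).open_target (hKs w)
  choose lam l1 l2 l3 _ l5 using fun w => exists_pbump (hK w) (V1 w) (V2 w)
  choose mu m1 m2 m3 m4 m5 using fun w => exists_pbump (V4 w) (Y.ch w).open_target (V3 w)
  have hF : ∀ w, {g : U.Γ | ∃ η ∈ Prod.snd '' Q, g • η ∈ (Y.ch w).symm '' closure (V w)}.Finite :=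
    fun w => Y.prop _ _ hC ((V4 w).image_of_continuousOn ((Y.ch w).continuousOn_symm.mono (V3 w)))
  let D : Set U.T := ⋃ w, ⋃ g ∈ {g : U.Γ | ∃ η ∈ Prod.snd '' Q,
    g • η ∈ (Y.ch w).symm '' closure (V w)}, (g • ·) '' (Prod.fst '' Q)
  have hD : IsCompact D := isCompact_iUnion fun w => (hF w).isCompact_biUnion fun g _ =>
    (hQ.image continuous_fst).image (continuous_const_smul g)
  refine ⟨⟨V, lam, mu, D, insert 1 (U.fin hs hD).toFinset, V1,
    fun w => subset_closure.trans (V3 w), l1, l2, l3, ?_, m1, m2, m3, m4,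
    fun w ξ hξ => m5 w ξ (subset_closure hξ), hD, ?_, Finset.mem_insert_self _ _, ?_⟩⟩
  · rintro w _ ⟨q, hq, rfl⟩ hz ht
    exact l5 w _ ⟨q.2, ⟨mem_image_of_mem _ hq, mk_mem_target.1 hz, subset_tsupport _ ht⟩, rfl⟩
  · rintro w x ξ hξ ⟨q, hq, e⟩
    rw [phi_apply] at e
    obtain ⟨g, hg⟩ := mk_eq.1 e.symm
    exact mem_iUnion.2 ⟨w, mem_iUnion₂.2 ⟨g, ⟨q.2, mem_image_of_mem _ hq, ξ, subset_closure hξ,
      (congrArg Prod.snd hg).symm⟩, q.1, mem_image_of_mem _ hq, congrArg Prod.fst hg⟩⟩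
  · intro x hx g hg
    exact Finset.mem_insert_of_mem ((Set.Finite.mem_toFinset _).2
      ⟨_, hg, by rwa [smul_inv_smul]⟩)

open Classical in
/-- the weights add up to one -/
theorem sum_t (z : ZZ U Y) : ∑ w, (if z ∈ (phi w).target then Y.t w (pZ z) else 0) = 1 := by
  obtain ⟨⟨x, η⟩, rfl⟩ := mk_surj z
  rw [← Y.t_sum η]
  refine Finset.sum_congr rfl fun w _ => ?_
  by_cases h : mk (x, η) ∈ (phi w).target
  · rw [if_pos h, indicator_of_mem (show η ∈ {ζ : Y.Y | ∃ g : U.Γ, g • ζ ∈ (Y.ch w).source} from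
      mk_mem_target.1 h)]
    rfl
  · rw [if_neg h, indicator_of_notMem (show η ∉ {ζ : Y.Y | ∃ g : U.Γ, g • ζ ∈ (Y.ch w).source} from
      fun h' => h (mk_mem_target.2 h'))]

theorem Gen.cover {Q : Set (U.T × Y.Y)} {supp : Set U.T} (H : Gen Y Q supp) {z : ZZ U Y}
    (hz : z ∈ T.mk '' Q) : ∃ w, z ∈ phi w '' (H.V w ×ˢ univ) := by
  classical
  obtain ⟨w, -, hw⟩ := Finset.exists_ne_zero_of_sum_ne_zero ((sum_t z).trans_ne one_ne_zero)
  by_cases h : z ∈ (phi w).target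
  · rw [if_pos h] at hw
    refine ⟨w, (phi w).symm z, ⟨?_, mem_univ _⟩, (phi w).right_inv h⟩
    rw [phi_symm_fst h]
    exact H.lam_sub w (subset_tsupport _ ((H.lam_one w z hz h hw).trans_ne one_ne_zero))
  · exact absurd (if_neg h) hw

open Classical in
/-- the fibred setting -/
def Gen.fib [DecidableEq ι] {Q : Set (U.T × Y.Y)} {supp : Set U.T} (H : Gen Y Q supp)
    (hQ : IsCompact Q) (b : ι → S → ℝ) (hb : ∀ a, M.Sm (b a)) (ht : M.pre.Tan b) :
    A.Fib n ι κ U.T (ZZ U Y) where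
  MT := cN U M
  M := zM M Y
  W := Y.W
  φ := phi
  cover := phi_cover
  hx := zM_phi M Y
  bT a x := b a (U.p x)
  bT_sm a := (hb a).res (loc_p U M)
  bT_tan a := funext fun x => by
    have := congrFun (ht a) (U.p x)
    simpa only [Finset.sum_apply, Pi.mul_apply, (loc_p U M x).P_iso] using this
  b a z := b a (qS z)
  b_φ w q _ a := by rw [qS_phi]
  G := Y.W × H.L
  w := Prod.fst
  U g := H.V g.1
  U_open g := H.V_open g.1
  U_sub g _ hq := mem_phi_source.2 (H.V_sub g.1 hq.1)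
  closed g K hK h := phi_closed g.1 hK (h.trans (H.V_sub g.1))
  Om := T.mk '' Q
  Om_cpt := hQ.image continuous_mk
  Om_cover z hz := let ⟨w, hw⟩ := H.cover hz; ⟨(w, ⟨1, H.one_mem⟩), hw⟩
  Om_loc g := ⟨H.D, H.D_cpt, H.D_loc g.1⟩

end Crest.Agent.N222.T

end
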