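import Crest.Agent.N222.T.Cov
import Crest.Agent.N222.F.Res
import Crest.Agent.N222.F.Bump

/-!
# Row 222, glue (helper55): labels on the universal covering
(SKELETON: fill in place, statements frozen; add lemmas freely)
-/

set_option autoImplicit false
set_option linter.dupNamespace false
open Set Filter Topology Function
open scoped ContDiff

noncomputable section

namespace Crest.Agent.N222.T

/-- a proper word length -/
theorem exists_len_nat (Γ : Type) [Group Γ] [Countable Γ] : ∃ n : Γ → ℕ, (∀ g, n g⁻¹ = n g) ∧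
    (∀ g h, n (g * h) ≤ n g + n h) ∧ ∀ R : ℕ, {g | n g ≤ R}.Finite := by
  obtain ⟨e, he⟩ := exists_injective_nat Γ
  let wt : Γ → ℕ := fun g => e g + e g⁻¹ + 1
  have wi : ∀ g, wt g⁻¹ = wt g := fun g => by simp only [wt, inv_inv]; omega
  let P : Γ → Set ℕ := fun g => {k | ∃ L : List Γ, L.prod = g ∧ (L.map wt).sum = k}
  have mem : ∀ g, sInf (P g) ∈ P g := fun g => Nat.sInf_mem ⟨_, [g], by simp, rfl⟩
  have inv : ∀ g, P g ⊆ P g⁻¹ := by
    rintro _ _ ⟨L, rfl, rfl⟩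
    refine ⟨(L.map fun x => x⁻¹).reverse, (List.prod_inv_reverse L).symm, ?_⟩
    rw [List.map_reverse, List.sum_reverse, List.map_map]
    exact congrArg (fun f => (L.map f).sum) (funext wi)
  refine ⟨fun g => sInf (P g), fun g => le_antisymm (Nat.sInf_le (inv g (mem g)))
    (Nat.sInf_le (by simpa using inv g⁻¹ (mem g⁻¹))), fun g h => Nat.sInf_le ?_, fun R => ?_⟩
  · obtain ⟨L, h1, h2⟩ := mem g
    obtain ⟨L', h3, h4⟩ := mem h
    exact ⟨L ++ L', by rw [List.prod_append, h1, h3],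
      by rw [List.map_append, List.sum_append, h2, h4]⟩
  · have key : ∀ R : ℕ, {g | ∃ k ≤ R, k ∈ P g}.Finite := by
      intro R
      induction R with
      | zero =>
        refine (finite_singleton 1).subset ?_
        rintro _ ⟨_, hk, L, rfl, rfl⟩
        cases L with
        | nil => rfl
        | cons a L => simp [wt] at hk
      | succ R ih =>
        have h1 : {a | wt a ≤ R + 1}.Finite :=
          ((finite_Iic (R + 1)).preimage he.injOn).subset fun a ha => by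
            simp only [wt, mem_ofPred_eq, mem_preimage, mem_Iic] at ha ⊢; omega
        refine ((finite_singleton 1).union (h1.image2 (· * ·) ih)).subset ?_
        rintro _ ⟨_, hk, L, rfl, rfl⟩
        cases L with
        | nil => exact Or.inl rfl
        | cons a L =>
          rw [List.map_cons, List.sum_cons] at hk
          have : 1 ≤ wt a := Nat.le_add_left _ _
          exact Or.inr ⟨a, by simp only [mem_ofPred_eq]; omega, L.prod,
            ⟨_, by omega, L, rfl, rfl⟩, List.prod_cons.symm⟩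
    exact (key R).subset fun g hg => ⟨_, hg, mem g⟩

/-- a proper length function on a countable group -/
theorem exists_len (Γ : Type) [Group Γ] [Countable Γ] {A : Set Γ} (hA : A.Finite) :
    ∃ l : Γ → ℝ, (∀ g, 0 ≤ l g) ∧ (∀ g, l g⁻¹ = l g) ∧ (∀ g h, l (g * h) ≤ l g + l h) ∧
      (∀ g ∈ A, l g ≤ 1) ∧ ∀ R : ℝ, {g | l g ≤ R}.Finite := by
  obtain ⟨n, h1, h2, h3⟩ := exists_len_nat Γ
  obtain ⟨C, hC⟩ := (hA.image n).bddAbove
  have h0 : (0 : ℝ) < C + 1 := by positivity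
  refine ⟨fun g => n g / (C + 1), fun g => by positivity, fun g => by simp only [h1],
    fun g h => ?_, fun g hg => ?_, fun R => (h3 ⌈R * (C + 1)⌉₊).subset fun g hg => ?_⟩
  · rw [← add_div]
    exact div_le_div_of_nonneg_right (by exact_mod_cast h2 g h) h0.le
  · have : (n g : ℝ) ≤ C := by exact_mod_cast hC ⟨g, hg, rfl⟩
    rw [div_le_one h0]
    linarith
  · have := ((div_le_iff₀ h0).1 hg).trans (Nat.le_ceil _)
    exact_mod_cast this

/-- an equivariant partition of unity by squares, a distance to the base region and a distance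
between labels -/
structure Lab (Γ : Type) {T ι : Type} [Group Γ] [MulAction Γ T] [TopologicalSpace T] [Fintype ι]
    [DecidableEq ι] {n : ℕ} (N : Imm n ι T) (K0 : ℝ) where
  w : T → ℝ
  d : T → ℝ
  l : Γ → ℝ
  w_sm : N.Tst w
  d_sm : N.Sm d
  sum : ∀ x (s : Finset Γ), (∀ g : Γ, w (g⁻¹ • x) ≠ 0 → g ∈ s) → ∑ g ∈ s, w (g⁻¹ • x) ^ 2 = 1
  le_one : ∀ x, w x ^ 2 ≤ 1
  cover : ∀ x, ∃ g : Γ, w (g⁻¹ • x) ≠ 0
  fis : ∀ x (s : Finset Γ), 4 * ∑ g ∈ s, N.pre.gam w w (g⁻¹ • x) + 1 ≤ K0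
  d_gam : ∀ x, N.pre.gam d d x + 1 ≤ K0
  d_one : ∀ x, w x ≠ 0 → d x ≤ 1
  d_sub : ∀ (g g' : Γ) x, d (g⁻¹ • x) - d (g'⁻¹ • x) ≤ l (g⁻¹ * g')
  d_add : ∀ (g g' : Γ) x, l (g⁻¹ * g') ≤ d (g⁻¹ • x) + d (g'⁻¹ • x)
  cpt : ∀ ρ : ℝ, IsCompact {x | d x ≤ ρ}

namespace Lb

variable {Γ T ι : Type} [Group Γ] [MulAction Γ T] [TopologicalSpace T] [Fintype ι] {n : ℕ}
  {N : Imm n ι T}

/-- sum over the translates -/
def sm (f : T → ℝ) (c : Γ → ℝ) (x : T) : ℝ := ∑ᶠ g, f (g⁻¹ • x) * c g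

omit [TopologicalSpace T] in
theorem sm_eq {f : T → ℝ} (c : Γ → ℝ) {x : T} {s : Finset Γ} (h : ∀ g : Γ, f (g⁻¹ • x) ≠ 0 → g ∈ s) :
    sm f c x = ∑ g ∈ s, f (g⁻¹ • x) * c g :=
  finsum_eq_sum_of_support_subset _ fun g hg => h g (left_ne_zero_of_mul hg)

omit [TopologicalSpace T] in
theorem sm_smul (f : T → ℝ) (c : Γ → ℝ) (h : Γ) (x : T) :
    sm f c (h⁻¹ • x) = sm f (fun k => c (h⁻¹ * k)) x := by
  rw [sm, sm, ← finsum_comp_equiv (Equiv.mulLeft h) (f := fun g => f (g⁻¹ • x) * c (h⁻¹ * g))]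
  simp [mul_smul]

/-- a properly discontinuous isometric action -/
structure Act (Γ : Type) [Group Γ] [MulAction Γ T] (N : Imm n ι T) : Prop where
  loc : ∀ (g : Γ) x, Loc N N (fun y => g • y) x
  fin : ∀ {A B : Set T}, IsCompact A → IsCompact B → {g : Γ | ∃ x ∈ A, g • x ∈ B}.Finite
  lc : LocallyCompactSpace T

theorem Act.locfin (H : Act Γ N) {B : Set T} (hB : IsCompact B) (x₀ : T) :
    ∃ s : Finset Γ, ∀ᶠ x in 𝓝 x₀, ∀ g : Γ, g⁻¹ • x ∈ B → g ∈ s := by
  have := H.lc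
  obtain ⟨W, hW, hx⟩ := exists_compact_mem_nhds x₀
  refine ⟨(H.fin hW hB).inv.toFinset, ?_⟩
  filter_upwards [hx] with x hx g hg
  exact (Finite.mem_toFinset _).2 ⟨x, hx, hg⟩

theorem Act.res (H : Act Γ N) {f : T → ℝ} (hf : N.Sm f) (g : Γ) : N.Sm fun x => f (g • x) :=
  hf.res (H.loc g)

theorem Act.sm_sm (H : Act Γ N) {f : T → ℝ} (hf : N.Tst f) (c : Γ → ℝ) : N.Sm (sm f c) := by
  refine Imm.sm_of_local fun x₀ => ?_
  obtain ⟨s, hs⟩ := H.locfin hf.cs x₀
  exact ⟨_, Imm.sm_sum s fun g _ => (H.res hf.sm g⁻¹).mul (Imm.sm_const (c g)),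
    hs.mono fun x hx => sm_eq c fun g hg => hx g (subset_tsupport _ hg)⟩

theorem tsupport_sq (f : T → ℝ) : tsupport (fun x => f x ^ 2) ⊆ tsupport f :=
  closure_mono (s := support fun x => f x ^ 2) (t := support f)
    fun _ hx h => hx (by simp only [h]; simp)

theorem tst_sq {f : T → ℝ} (hf : N.Tst f) : N.Tst fun x => f x ^ 2 :=
  ⟨hf.sm.pow 2, hf.cs.mono fun _ hx => fun h => hx (by simp only [h]; simp)⟩

theorem Act.exists_w [T2Space T] [SecondCountableTopology T] (H : Act Γ N) {K : Set T}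
    (hK : IsCompact K) (hc : ∀ x, ∃ g : Γ, g • x ∈ K) :
    ∃ w, N.Tst w ∧ ∀ x, sm (fun y => w y ^ 2) (fun _ : Γ => 1) x = 1 := by
  obtain ⟨v, hv, -, -, h1⟩ := N.exists_bump hK isOpen_univ (subset_univ _)
  set B := sm (fun y => v y ^ 2) (fun _ : Γ => 1) with hB
  have hs : ∀ x, ∃ s : Finset Γ, ∀ g : Γ, v (g⁻¹ • x) ≠ 0 → g ∈ s := fun x =>
    (H.locfin hv.cs x).imp fun _ hs g hg => hs.self_of_nhds g (subset_tsupport _ hg)
  have hB0 : ∀ x, 0 < B x := fun x => by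
    obtain ⟨s, hs⟩ := hs x
    obtain ⟨g, hg⟩ := hc x
    have h2 : v (g⁻¹⁻¹ • x) = 1 := by rw [inv_inv]; exact h1.self_of_nhdsSet _ hg
    rw [hB, sm_eq _ fun g hg => hs g (pow_ne_zero_iff two_ne_zero |>.1 hg)]
    exact Finset.sum_pos' (fun _ _ => by positivity)
      ⟨g⁻¹, hs _ (by rw [h2]; exact one_ne_zero), by rw [h2]; norm_num⟩
  have hBs : N.Sm B := H.sm_sm (tst_sq hv) _
  refine ⟨fun x => v x / √(B x), ⟨hv.sm.div (hBs.sqrt fun x => (hB0 x).ne')
    fun x => (Real.sqrt_pos.2 (hB0 x)).ne', hv.cs.mono fun _ hx h => hx (by simp only [h]; simp)⟩,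
    fun x => ?_⟩
  obtain ⟨s, hs⟩ := hs x
  have hi : ∀ g : Γ, B (g⁻¹ • x) = B x := fun g => sm_smul _ _ g x
  rw [sm_eq _ fun g hg => hs g fun h => hg (by simp only [h]; simp)]
  simp only [div_pow, hi, Real.sq_sqrt (hB0 x).le, mul_one]
  rw [← Finset.sum_div, div_eq_one_iff_eq (hB0 x).ne', hB,
    sm_eq _ fun g hg => hs g (pow_ne_zero_iff two_ne_zero |>.1 hg)]
  simp only [mul_one]

omit [TopologicalSpace T] in
/-- bounded multiplicity -/
theorem sum_le_card {B : Set T} {A : Finset Γ} (hA : ∀ a : Γ, ∀ x ∈ B, a⁻¹ • x ∈ B → a ∈ A) (x : T)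
    (s : Finset Γ) {φ : Γ → ℝ} {C : ℝ} (hC : 0 ≤ C) (h1 : ∀ g, φ g ≤ C)
    (h2 : ∀ g, φ g ≠ 0 → g⁻¹ • x ∈ B) : ∑ g ∈ s, φ g ≤ A.card * C := by
  classical
  rw [← Finset.sum_filter_ne_zero]
  refine (Finset.sum_le_card_nsmul _ _ C fun g _ => h1 g).trans ?_
  rw [nsmul_eq_mul]
  refine mul_le_mul_of_nonneg_right (Nat.cast_le.2 ?_) hC
  rcases (s.filter fun g => φ g ≠ 0).eq_empty_or_nonempty with h | ⟨g₀, h₀⟩
  · rw [h]; exact Nat.zero_le _
  · refine Finset.card_le_card_of_injOn (fun g => g₀⁻¹ * g) (fun g hg => ?_)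
      (mul_right_injective _).injOn
    refine hA _ _ (h2 g₀ (Finset.mem_filter.1 h₀).2) ?_
    rw [← mul_smul, mul_inv_rev, inv_inv, mul_inv_cancel_right]
    exact h2 g (Finset.mem_filter.1 hg).2

theorem Act.exists_lab [DecidableEq ι] [T2Space T] [Countable Γ] [ContinuousConstSMul Γ T]
    (H : Act Γ N) {w : T → ℝ} (hw : N.Tst w)
    (h1 : ∀ x, sm (fun y => w y ^ 2) (fun _ : Γ => 1) x = 1) :
    ∃ K0 : ℝ, 1 ≤ K0 ∧ Nonempty (Lab Γ N K0) := by
  have hq := tst_sq hw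
  have eq : ∀ (c : Γ → ℝ) {x} {s : Finset Γ}, (∀ g : Γ, w (g⁻¹ • x) ≠ 0 → g ∈ s) →
      sm (fun y => w y ^ 2) c x = ∑ g ∈ s, w (g⁻¹ • x) ^ 2 * c g := fun c x s hs =>
    sm_eq _ fun g hg => hs g (pow_ne_zero_iff two_ne_zero |>.1 hg)
  have hsum : ∀ x (s : Finset Γ), (∀ g : Γ, w (g⁻¹ • x) ≠ 0 → g ∈ s) →
      ∑ g ∈ s, w (g⁻¹ • x) ^ 2 = 1 := fun x s hs => by
    simpa only [mul_one] using (eq _ hs).symm.trans (h1 x)
  have hs : ∀ x, ∃ s : Finset Γ, ∀ g : Γ, w (g⁻¹ • x) ≠ 0 → g ∈ s := fun x =>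
    (H.locfin hw.cs x).imp fun _ hs g hg => hs.self_of_nhds g (subset_tsupport _ hg)
  have cover : ∀ x, ∃ g : Γ, w (g⁻¹ • x) ≠ 0 := fun x => by
    by_contra! h
    simpa using hsum x ∅ fun g hg => absurd (h g) hg
  have avg : ∀ (c c' : Γ → ℝ) (r : ℝ) x, (∀ g : Γ, w (g⁻¹ • x) ≠ 0 → c g + c' g ≤ r) →
      sm (fun y => w y ^ 2) c x + sm (fun y => w y ^ 2) c' x ≤ r := fun c c' r x h => by
    obtain ⟨s, hs⟩ := hs x
    rw [eq c hs, eq c' hs, ← Finset.sum_add_distrib, ← one_mul r, ← hsum x s hs, Finset.sum_mul]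
    refine Finset.sum_le_sum fun g _ => ?_
    rw [← mul_add]
    by_cases hg : w (g⁻¹ • x) = 0
    · simp [hg]
    · exact mul_le_mul_of_nonneg_left (h g hg) (sq_nonneg _)
  have neg : ∀ (c : Γ → ℝ) x, sm (fun y => w y ^ 2) (fun g => -c g) x =
      -sm (fun y => w y ^ 2) c x := fun c x => by
    obtain ⟨s, hs⟩ := hs x
    simp only [eq _ hs, mul_neg, Finset.sum_neg_distrib]
  have hA := (H.fin hw.cs hw.cs).inv
  have hA' : ∀ a : Γ, ∀ x ∈ tsupport w, a⁻¹ • x ∈ tsupport w → a ∈ hA.toFinset :=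
    fun a x hx ha => (Finite.mem_toFinset _).2 ⟨x, hx, ha⟩
  obtain ⟨l, l0, li, lm, l1, lf⟩ := exists_len Γ hA
  have l1' : ∀ a : Γ, ∀ x ∈ tsupport w, a⁻¹ • x ∈ tsupport w → l a ≤ 1 :=
    fun a x hx ha => l1 a ⟨x, hx, ha⟩
  have hg0 : ∀ x ∉ tsupport w, N.pre.gam w w x = 0 := fun x hx => by
    simp only [Imm.gam_apply, Imm.D_eq_zero_of_notMem hx, mul_zero, Finset.sum_const_zero]
  obtain ⟨C₁, hC₁⟩ := (hw.sm.gam hw.sm).continuous.bounded_above_of_compact_support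
    (HasCompactSupport.intro hw.cs hg0)
  choose C hC using fun a : ι =>
    (hq.D a).sm.continuous.bounded_above_of_compact_support (hq.D a).cs
  have hd : N.Sm (sm (fun y => w y ^ 2) l) := H.sm_sm hq l
  have hD : ∀ a x, |N.pre.D a (sm (fun y => w y ^ 2) l) x| ≤ hA.toFinset.card * C a := by
    intro a x
    obtain ⟨s, hs⟩ := H.locfin hw.cs x
    obtain ⟨g₀, h₀⟩ := cover x
    have e : sm (fun y => w y ^ 2) l =ᶠ[𝓝 x]
        fun y => (∑ g ∈ s, (l g - l g₀) * w (g⁻¹ • y) ^ 2) + l g₀ := hs.mono fun y hy => by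
      have hy' : ∀ g : Γ, w (g⁻¹ • y) ≠ 0 → g ∈ s := fun g hg => hy g (subset_tsupport _ hg)
      simp only [eq l hy', sub_mul, Finset.sum_sub_distrib, ← Finset.mul_sum, hsum y s hy',
        mul_comm]
      ring
    have d1 : ∀ g : Γ, N.Sm fun y => w (g⁻¹ • y) ^ 2 := fun g => H.res hq.sm g⁻¹
    have d2 : ∀ g ∈ s, N.Sm fun y => (l g - l g₀) * w (g⁻¹ • y) ^ 2 :=
      fun g _ => (Imm.sm_const _).mul (d1 g)
    rw [Imm.D_congr e, Imm.D_add ((Imm.sm_sum s d2).diffAt x) ((Imm.sm_const _).diffAt x),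
      Imm.D_const, add_zero, Imm.D_sum s fun g hg => (d2 g hg).diffAt x]
    refine (Finset.abs_sum_le_sum_abs _ _).trans ?_
    have e2 : ∀ g : Γ, N.pre.D a (fun y => (l g - l g₀) * w (g⁻¹ • y) ^ 2) x =
        (l g - l g₀) * N.pre.D a (fun y => w y ^ 2) (g⁻¹ • x) := fun g => by
      rw [Imm.D_const_mul _ ((d1 g).diffAt x), (H.loc g⁻¹ x).D_iso fun y => w y ^ 2]
    have e3 : ∀ g : Γ, g⁻¹ • x ∉ tsupport w → N.pre.D a (fun y => w y ^ 2) (g⁻¹ • x) = 0 :=
      fun g hg => Imm.D_eq_zero_of_notMem (fun h => hg (tsupport_sq w h)) a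
    have hC0 : 0 ≤ C a := (norm_nonneg _).trans (hC a x)
    refine sum_le_card hA' x s hC0 (fun g => ?_) fun g hg => ?_
    · rw [e2]
      by_cases hg : g⁻¹ • x ∈ tsupport w
      · have h3 : l (g₀⁻¹ * g) ≤ 1 := l1' _ _ (subset_tsupport _ h₀) (by
          rwa [← mul_smul, mul_inv_rev, inv_inv, mul_inv_cancel_right])
        have h4 := lm g₀ (g₀⁻¹ * g)
        have h5 := lm g (g₀⁻¹ * g)⁻¹
        rw [mul_inv_cancel_left] at h4
        rw [li, mul_inv_rev, inv_inv, mul_inv_cancel_left] at h5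
        rw [abs_mul, ← one_mul (C a)]
        exact mul_le_mul (abs_le.2 ⟨by linarith, by linarith⟩) (hC a _) (abs_nonneg _) zero_le_one
      · rwa [e3 g hg, mul_zero, abs_zero]
    · by_contra h
      exact hg (by rw [e2, e3 g h, mul_zero, abs_zero])
  refine ⟨max 1 (max (4 * (hA.toFinset.card * C₁) + 1) (∑ a, (hA.toFinset.card * C a) ^ 2 + 1)),
    le_max_left _ _, ⟨⟨w, sm (fun y => w y ^ 2) l, l, hw, hd, hsum, fun x => ?_, cover,
      fun x s => ?_, fun x => ?_, fun x hx => ?_, fun g g' x => ?_, fun g g' x => ?_, fun ρ => ?_⟩⟩⟩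
  · obtain ⟨s, hs⟩ := hs x
    by_cases h : w x = 0
    · simp [h]
    · have := Finset.single_le_sum (f := fun g : Γ => w (g⁻¹ • x) ^ 2) (fun _ _ => sq_nonneg _)
        (hs 1 (by simpa using h))
      simpa [hsum x s hs] using this
  · have := sum_le_card hA' x s (φ := fun g => N.pre.gam w w (g⁻¹ • x))
      ((norm_nonneg _).trans (hC₁ x)) (fun g => (le_abs_self _).trans (hC₁ _))
      fun g hg => by_contra fun h => hg (hg0 _ h)
    exact le_max_of_le_right (le_max_of_le_left (by linarith))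
  · refine le_max_of_le_right (le_max_of_le_right ?_)
    rw [Imm.gam_apply]
    refine add_le_add_left (Finset.sum_le_sum fun a _ => ?_) _
    rw [← sq, ← sq_abs]
    exact pow_le_pow_left₀ (abs_nonneg _) (hD a x) 2
  · have := avg l (fun _ => 0) 1 x fun g hg => by
      rw [add_zero]; exact l1' g x (subset_tsupport _ hx) (subset_tsupport _ hg)
    simpa [sm] using this
  · rw [sm_smul, sm_smul, sub_eq_add_neg, ← neg]
    refine avg _ _ _ x fun k _ => ?_
    have := lm (g⁻¹ * g') (g'⁻¹ * k)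
    rw [mul_assoc, mul_inv_cancel_left] at this
    linarith
  · have := avg (fun k => -l (g⁻¹ * k)) (fun k => -l (g'⁻¹ * k)) (-l (g⁻¹ * g')) x fun k _ => by
      have := lm (g⁻¹ * k) (g'⁻¹ * k)⁻¹
      rw [li, mul_inv_rev, inv_inv, mul_assoc, mul_inv_cancel_left] at this
      linarith
    rw [neg, neg] at this
    rw [sm_smul, sm_smul]
    linarith
  · refine ((lf ρ).isCompact_biUnion fun g _ => hw.cs.isCompact.image
      (continuous_const_smul g)).of_isClosed_subset (isClosed_le hd.continuous continuous_const)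
      fun x hx => ?_
    by_contra h
    have h2 : ∀ g : Γ, w (g⁻¹ • x) ≠ 0 → ρ < l g := fun g hg => not_le.1 fun hl =>
      h (mem_iUnion₂.2 ⟨g, hl, _, subset_tsupport _ hg, smul_inv_smul g x⟩)
    obtain ⟨s, hs⟩ := hs x
    obtain ⟨g₀, h₀⟩ := cover x
    refine not_lt.2 (mem_ofPred.1 hx) ?_
    rw [eq l hs, ← one_mul ρ, ← hsum x s hs, Finset.sum_mul]
    refine Finset.sum_lt_sum (fun g _ => ?_)
      ⟨g₀, hs _ h₀, mul_lt_mul_of_pos_left (h2 _ h₀) (by positivity)⟩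
    by_cases hg : w (g⁻¹ • x) = 0
    · simp [hg]
    · exact mul_le_mul_of_nonneg_left (h2 g hg).le (sq_nonneg _)

end Lb

variable {S ι : Type} [TopologicalSpace S] [Fintype ι] {n : ℕ} (U : C.Cov S) (M : Imm n ι S)

/-- the universal covering as an immersed manifold -/
def cN : Imm n ι U.T := M.comap U.p U.loc

theorem cN_x (x : U.T) : (cN U M).x x = M.x (U.p x) := rfl

theorem loc_p (x : U.T) : Loc (cN U M) M U.p x := M.loc_comap U.p U.loc x

/-- deck transformations are isometries -/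
theorem loc_smul (g : U.Γ) (x : U.T) : Loc (cN U M) (cN U M) (fun y => g • y) x :=
  Loc.of_cont (continuous_const_smul g) (fun y => by rw [cN_x, cN_x, U.p_smul]) x

theorem exists_lab [DecidableEq ι] [T2Space S] [SecondCountableTopology S] [CompactSpace S] :
    ∃ K0 : ℝ, 1 ≤ K0 ∧ Nonempty (Lab U.Γ (cN U M) K0) := by
  have : LocallyCompactSpace S := by
    let := M.chartedSpace
    exact ChartedSpace.locallyCompactSpace (E (Fin n)) S
  have := U.cnt
  have H : Lb.Act U.Γ (cN U M) := ⟨loc_smul U M, U.fin, inferInstance⟩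
  obtain ⟨K, hK, hc⟩ := U.cocpt
  obtain ⟨w, hw, h1⟩ := H.exists_w hK hc
  exact H.exists_lab hw h1

end Crest.Agent.N222.T

end
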