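import Crest.Agent.N222.T.Quot
import Crest.Agent.N222.T.Lab
import Crest.Agent.N222.A.Par

/-!
# Row 222, glue (helper89): more on the quotient; its immersion
-/

set_option autoImplicit false
set_option linter.dupNamespace false
open Set Filter Topology Function

noncomputable section

namespace Crest.Agent.N222

/-- an immersion given in local homeomorphisms -/
theorem Imm.exists_glue {d : ℕ} {ι : Type} [Fintype ι] {X Z W : Type} [TopologicalSpace X]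
    [TopologicalSpace Z] (M : Imm d ι X) (φ : W → OpenPartialHomeomorph X Z)
    (hc : ∀ z, ∃ w, z ∈ (φ w).target) (x : Z → E ι)
    (hx : ∀ w, ∀ q ∈ (φ w).source, x (φ w q) = M.x q) : ∃ N : Imm d ι Z, N.x = x := by
  choose w hw using hc
  exact ⟨⟨x, fun z => (φ (w z)).symm.trans (M.ch ((φ (w z)).symm z)), fun z => ⟨hw z, M.mem _⟩,
    fun z => (M.isChart _).of_eqOn (fun y hy => hy.1) fun y hy => hx _ _ hy.2⟩, rfl⟩

namespace T

variable {S : Type} [TopologicalSpace S] {U : C.Cov S} {κ : Type} [Fintype κ] {Y : C.Par U.Γ κ}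

theorem phi_π {w : Y.W} {g : U.Γ} {η : Y.Y} (h : g • η ∈ (Y.ch w).source) (x : U.T) :
    phi w (Y.π η, g • x) = mk (x, η) := by
  rw [phi_apply, Y.symm_π h]
  exact mk_smul g (x, η)

theorem mem_phi_image {w : Y.W} {K : Set (κ → ℝ)} (hK : K ⊆ (Y.ch w).target) {z : U.T × Y.Y} :
    mk z ∈ phi w '' (K ×ˢ univ) ↔ ∃ g : U.Γ, g • z.2 ∈ (Y.ch w).source ∧ Y.π z.2 ∈ K := by
  constructor
  · rintro ⟨q, hq, h⟩
    rw [phi_apply] at h
    obtain ⟨g, hg⟩ := mk_eq.1 h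
    have h2 : g • z.2 = (Y.ch w).symm q.1 := congrArg Prod.snd hg
    refine ⟨g, h2 ▸ (Y.ch w).map_target (hK hq.1), ?_⟩
    rw [← Y.π_smul g, h2, Y.π_symm w (hK hq.1)]
    exact hq.1
  · rintro ⟨g, hg, h⟩
    exact ⟨_, ⟨h, mem_univ _⟩, phi_π hg z.1⟩

theorem mem_phi_image' {w : Y.W} {K : Set (κ → ℝ)} (hK : K ⊆ (Y.ch w).target) {z : ZZ U Y} :
    z ∈ phi w '' (K ×ˢ univ) ↔ z ∈ (phi w).target ∧ pZ z ∈ K := by
  obtain ⟨⟨x, η⟩, rfl⟩ := mk_surj z
  rw [mem_phi_image hK, mk_mem_target, exists_and_right, pZ_mk]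

/-- a compact set is bounded in the fibre direction over a compact part of a chart -/
theorem phi_loc (w : Y.W) {K : Set (κ → ℝ)} (hK : IsCompact K) (h : K ⊆ (Y.ch w).target)
    {Om : Set (ZZ U Y)} (hO : IsCompact Om) :
    ∃ D : Set U.T, IsCompact D ∧ ∀ x, ∀ ξ ∈ K, phi w (ξ, x) ∈ Om → x ∈ D := by
  have h1 : phi (U := U) w '' (K ×ˢ univ) ⊆ (phi w).target :=
    fun _ hz => ((mem_phi_image' h).1 hz).1
  exact ⟨Prod.snd '' ((phi w).symm '' (Om ∩ phi w '' (K ×ˢ univ))),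
    ((hO.inter_right (phi_closed w hK h)).image_of_continuousOn
      ((phi w).continuousOn_symm.mono fun z hz => h1 hz.2)).image continuous_snd,
    fun x ξ hξ hx => ⟨(ξ, x), ⟨_, ⟨hx, _, ⟨hξ, mem_univ _⟩, rfl⟩,
      (phi w).left_inv (mem_phi_source.2 (h hξ))⟩, rfl⟩⟩

theorem continuous_pZ : Continuous (pZ : ZZ U Y → κ → ℝ) :=
  isQuotientMap_mk.continuous_iff.2 (Y.continuous_π.comp continuous_snd)

theorem preimage_image_mk (Q : Set (U.T × Y.Y)) : mk ⁻¹' (mk '' Q) = C.sat U.Γ Q := by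
  ext z
  refine ⟨fun ⟨q, hq, h⟩ => ?_, fun ⟨g, hg⟩ => ⟨_, hg, mk_smul g z⟩⟩
  obtain ⟨g, rfl⟩ := mk_eq.1 h
  exact ⟨g, hq⟩

instance lcZ [LocallyCompactSpace S] : LocallyCompactSpace (ZZ U Y) :=
  IsOpenQuotientMap.locallyCompactSpace ⟨mk_surj, continuous_mk, isOpenMap_mk⟩

/-- the immersion of the quotient -/
theorem exists_imm {n : ℕ} {ι : Type} [Fintype ι] (M : Imm n ι S) (Y : C.Par U.Γ κ) :
    ∃ N : Imm (n + Fintype.card κ) (ι ⊕ κ) (ZZ U Y), (∀ z, N.x z = comb (pZ z, M.x (qS z))) ∧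
      ∀ w, ∀ q ∈ (phi w).source, N.x (phi w q) = comb (q.1, (cN U M).x q.2) := by
  have h : ∀ w : Y.W, ∀ q ∈ (phi w).source, comb (pZ (phi w q), M.x (qS (phi w q))) =
      comb (q.1, (cN U M).x q.2) := fun w q hq => by rw [pZ_phi hq, qS_phi, cN_x]
  obtain ⟨N, hN⟩ := ((cN U M).par κ).exists_glue phi phi_cover
    (fun z => comb (pZ z, M.x (qS z))) h
  exact ⟨N, fun z => by rw [hN], fun w q hq => by rw [hN]; exact h w q hq⟩

end T

end Crest.Agent.N222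

end
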